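import Vale.Agent.N279V.Filt

/-!
# Germs along the curve `z = x ^ (-N)` in the degenerate chart
-/

set_option linter.all false

namespace Vale.Agent.N279V

open Vale.Agent.P279 Vale.Agent.P279.H35 Vale.Agent.N279

universe u

variable {k : Type u} [Field k]

/-- The leading term statement for given local coordinates. -/
def LAb (k : Type u) [Field k] (S : Finset (Fin 2 →₀ ℕ)) (s D Q A B c : ℕ)
    (xy : Fin 2 → MvPolynomial (Fin 2) k) : Prop :=
  ∀ P : MvPolynomial (Fin 2) (PowerSeries k), P ≠ 0 → P.support ⊆ S →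
    ∃ (e : ℕ) (lam : ℕ → LaurentPolynomial k), (∃ q ≤ Q, lam q ≠ 0) ∧
      (∀ q ≤ Q, ∀ p : ℤ, (lam q).coeff p ≠ 0 →
        ((A : ℤ) + B) * p ≤ ((D : ℤ) - s * q) * B ∧ -(((A : ℤ) + B) * p) ≤ ((D : ℤ) - s * q) * A) ∧
      ∀ (𝔅 : Type u) [CommRing 𝔅] [Algebra k 𝔅] (x : 𝔅ˣ) (z : 𝔅),
        PowerSeries.coeff e (MvPolynomial.eval₂ (PowerSeries.map (algebraMap k 𝔅))
          (fun j => ev1 A B c x z (xy j)) P) =
          ∑ q ∈ Finset.range (Q + 1), LaurentPolynomial.eval₂ (algebraMap k 𝔅) x (lam q) * z ^ q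

section General

open MvPolynomial

theorem lab_of {ι : Type} [Fintype ι] {S : Finset (Fin 2 →₀ ℕ)} {s D Q A B : ℕ} (hA : 0 < A)
    (hB : 0 < B) (hQ : s * Q ≤ D)
    (f₀ : MvPolynomial (Fin 2) k) (mon : ι → MvPolynomial (Fin 2) k) (I : ℕ → Set ι)
    (hdig : ∀ τ : PowerSeries k, ∀ δ ∈ S, HasDig (map (algebraMap k (PowerSeries k)) f₀ - C τ)
      (fun i => map (algebraMap k (PowerSeries k)) (mon i)) I Q (X 0 ^ δ 0 * X 1 ^ δ 1))
    {xy : Fin 2 → MvPolynomial (Fin 2) k}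
    (h1 : aeval xy f₀ - X 0 * X 1 ∈ idealOfVars (Fin 2) k ^ (A + B + (D * A * B + 1) + 1))
    (h2 : ∀ q ≤ Q, Win (fun i => aeval xy (mon i)) (I q) (D - s * q)) :
    LAb k S s D Q A B (D * A * B + 1) xy := by
  intro P hP hPS
  obtain ⟨d, hd, hPd⟩ := HasDig.of_monomial (hdig (PowerSeries.X ^ (A + B))) hPS
  have hne : ∃ q ≤ Q, ∃ i, d q i ≠ 0 := by
    by_contra hcon
    push Not at hcon
    apply hP
    rw [hPd]
    refine Finset.sum_eq_zero fun q hq => ?_
    rw [Finset.mem_range] at hq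
    simp [hcon q (by omega)]
  obtain ⟨e, lam, g1, g2, g3⟩ := la_abs hA hB h1 I (fun q => D - s * q) h2 (fun q _ => by
    have e1 : (D - s * q) * A * B ≤ D * A * B := by gcongr; omega
    have e2 : 1 * (D * A * B + 1) ≤ (A + B) * (D * A * B + 1) := by gcongr; omega
    omega) d hd hne
  refine ⟨e, lam, g1, fun q hq p hp => ?_, fun 𝔅 _ _ x z => ?_⟩
  · have h3 : s * q ≤ D := (Nat.mul_le_mul_left s hq).trans hQ
    have := g2 q hq p hp
    push_cast [h3] at this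
    exact this
  · rw [← g3 𝔅 x z]
    congr 1
    have key : ∀ g : MvPolynomial (Fin 2) k, eval₂ (PowerSeries.map (algebraMap k 𝔅))
        (fun j => ev1 A B (D * A * B + 1) x z (xy j)) (map (algebraMap k (PowerSeries k)) g) =
        ev1 A B (D * A * B + 1) x z (aeval xy g) := by
      intro g
      rw [eval₂_map, ← AlgHom.comp_apply, comp_aeval, aeval_def]
      congr 1
    rw [hPd, eval₂_sum]
    refine Finset.sum_congr rfl fun q _ => ?_
    rw [eval₂_mul, eval₂_pow, eval₂_sub, key, eval₂_C, map_pow, PowerSeries.map_X, eval₂_sum,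
      N279.blk]
    congr 1
    refine Finset.sum_congr rfl fun i _ => ?_
    rw [eval₂_mul, eval₂_C, key]

theorem coeff_one_sq_add (s : Polynomial k) :
    (s ^ 2 + s).coeff 1 = (2 * s.coeff 0 + 1) * s.coeff 1 := by
  rw [pow_two, Polynomial.coeff_add, Polynomial.coeff_mul,
    Finset.Nat.sum_antidiagonal_succ]
  simp
  ring

/-- The leading term statement for the nodal cubic, with the linear part of the coordinates. -/
theorem lab_plane (d : ℕ) {A B : ℕ} (hA : 0 < A) (hB : 0 < B) :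
    ∃ (c : ℕ) (xy : Fin 2 → MvPolynomial (Fin 2) k), 1 ≤ c ∧
      coeff (Finsupp.single 0 1) (xy 0) ≠ 0 ∧ coeff (Finsupp.single 1 1) (xy 0) ≠ 0 ∧
      LAb k (tri d) 9 (3 * d) (d / 3) A B c xy := by
  have hQ : 3 * (d / 3) ≤ d := Nat.mul_div_le d 3
  obtain ⟨xy, h1, h2, h3⟩ := (hypP k 0).loc (A + B + (3 * d * A * B + 1) + 1 + 3 * d + 1)
  refine ⟨3 * d * A * B + 1, xy, by omega, ?_, ?_, ?_⟩
  · obtain ⟨s, s0, s1, s2, -⟩ := h2
    rw [← coeff_ax0, s2, coeff_one_sq_add, s0]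
    refine mul_ne_zero ?_ s1
    norm_num
  · obtain ⟨s, s0, s1, s2, -⟩ := h3
    rw [← coeff_ax1, s2, coeff_one_sq_add, s0]
    simpa using s1
  refine lab_of hA hB (by omega) (hypP k 0).f
    (fun j : Fin (0 + 3) × Fin (d + 1) => X 0 ^ (j.1 : ℕ) * X 1 ^ (j.2 : ℕ))
    (fun q => {j | (0 + 3) * q + j.1 + j.2 ≤ d}) (fun τ δ hδ => ?_)
    (Ideal.pow_le_pow_right (by omega) h1) fun q hq => ?_
  · have := dig_plane (k := k) τ 0 d (δ 0) 0 (δ 1) (by rw [mem_tri] at hδ; omega)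
    simpa using this
  refine (hypP k 0).win (fun j : Fin (0 + 3) × Fin (d + 1) => j.1) (fun j => j.2) _ (L := d)
    (by omega) (fun j _ => by omega) (fun j hj => ?_) (fun c _ m h e => ?_) h2 h3
  · have hj' : (0 + 3) * q + j.1 + j.2 ≤ d := hj
    simp only [hypP, Polynomial.natDegree_pow, Polynomial.natDegree_X, Polynomial.natDegree_one]
    omega
  · have hN : inX (hypP k 0).N = 1 := by simp [hypP, inX]
    rw [hN, one_pow, one_mul] at e
    refine eq_zero_of_mon (i := fun j : Fin (0 + 3) × Fin (d + 1) => j.1) (l := fun j => j.2)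
      (fun j j' h1 h2 => Prod.ext (Fin.ext h1) (Fin.ext h2)) ?_
    by_contra hne
    have hc : coeff (Finsupp.single 0 (0 + 3)) (hypP k 0).f ≠ 0 := by
      rw [← coeff_ax0, hypP_f]
      have : ax0 k (X 1 ^ 2 - X 0 * inX (ps k (0 + 1)) * X 1 + (-1) ^ (0 + 1) * X 0 ^ (0 + 3)) =
          Polynomial.C ((-1) ^ (0 + 1)) * Polynomial.X ^ (0 + 3) := by
        simp [ax0]
      rw [this, Polynomial.coeff_C_mul, Polynomial.coeff_X_pow, if_pos rfl, mul_one]
      exact pow_ne_zero _ (neg_ne_zero.2 one_ne_zero)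
    have h4 := monomial_le_degreeOf 0 (mem_support_iff.2 hc)
    have h5 : degreeOf 0 (∑ j : Fin (0 + 3) × Fin (d + 1),
        C (c j) * (X 0 ^ (j.1 : ℕ) * X 1 ^ (j.2 : ℕ)) : MvPolynomial (Fin 2) k) < 0 + 3 :=
      (degreeOf_lt_iff (n := 0) (by omega : 0 < 0 + 3)).2 fun δ hδ => by
        obtain ⟨j, -, hj, -⟩ := exists_of_coeff (mem_support_iff.1 hδ)
        exact hj ▸ j.1.2
    rw [e] at hne h5
    rw [degreeOf_mul_eq (left_ne_zero_of_mul hne) (right_ne_zero_of_mul hne)] at h5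
    simp at h4
    omega

theorem lin_part (h : MvPolynomial (Fin 2) k) : h - (C (coeff 0 h) +
    C (coeff (Finsupp.single 0 1) h) * X 0 + C (coeff (Finsupp.single 1 1) h) * X 1) ∈
      idealOfVars (Fin 2) k ^ 2 := by
  classical
  rw [mem_pow_idealOfVars_iff']
  intro δ hδ
  have h1 : δ 0 + δ 1 < 2 := by simpa [Finsupp.degree_eq_sum] using hδ
  have e : δ = Finsupp.single 0 (δ 0) + Finsupp.single 1 (δ 1) := by
    ext i
    fin_cases i <;> simp
  have h01 : (Finsupp.single (0 : Fin 2) 1 : Fin 2 →₀ ℕ) ≠ Finsupp.single 1 1 := by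
    simp [Finsupp.single_eq_single_iff]
  simp only [coeff_sub, coeff_add, coeff_C, coeff_C_mul, coeff_X]
  have h2 : (δ 0 = 0 ∧ δ 1 = 0) ∨ (δ 0 = 1 ∧ δ 1 = 0) ∨ (δ 0 = 0 ∧ δ 1 = 1) := by omega
  rcases h2 with ⟨a, b⟩ | ⟨a, b⟩ | ⟨a, b⟩ <;> rw [a, b] at e <;> subst e
  · simp [eq_comm (a := (0 : Fin 2 →₀ ℕ))]
  · simp [h01.symm, eq_comm (a := (0 : Fin 2 →₀ ℕ))]
  · simp [h01, eq_comm (a := (0 : Fin 2 →₀ ℕ))]

end General

open Polynomial

/-- The curve `z = x ^ (-N)` near `x = y`, with `κ` an approximate inverse of `y + X`. -/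
noncomputable def ev2 (A B c N : ℕ) (y : k) (κ : k[X]) :
    MvPolynomial (Fin 2) k →ₐ[k] (PowerSeries k)[X] :=
  MvPolynomial.aeval ![C (PowerSeries.X ^ A) * (C (PowerSeries.C y) + X),
    C (PowerSeries.X ^ B) * (κ.map (algebraMap k _) *
      (1 + C (PowerSeries.X ^ c) * κ.map (algebraMap k _) ^ N))]

theorem ev2_coeff_one {A B c N : ℕ} (hA : 0 < A) (hB : 0 < B) (hc : 1 ≤ c) {y : k} {κ : k[X]}
    (hκ : X ^ 2 ∣ (C y + X) * κ - 1) {h : MvPolynomial (Fin 2) k}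
    (h0 : MvPolynomial.coeff (Finsupp.single 0 1) h ≠ 0)
    (h1 : MvPolynomial.coeff (Finsupp.single 1 1) h ≠ 0)
    (hy : MvPolynomial.coeff (Finsupp.single 0 1) h * y ^ 2 ≠
      MvPolynomial.coeff (Finsupp.single 1 1) h) : (ev2 A B c N y κ h).coeff 1 ≠ 0 := by
  set c₁ := MvPolynomial.coeff (Finsupp.single 0 1) h
  set c₂ := MvPolynomial.coeff (Finsupp.single 1 1) h
  have k0 : y * κ.coeff 0 = 1 := by
    have := X_pow_dvd_iff.1 hκ 0 (by omega)
    simpa [add_mul, sub_eq_zero] using this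
  have k1 : y * κ.coeff 1 + κ.coeff 0 = 0 := by
    have := X_pow_dvd_iff.1 hκ 1 (by omega)
    simpa [add_mul, coeff_one] using this
  have k2 : y ^ 2 * κ.coeff 1 = -1 := by linear_combination y * k1 - k0
  set μ := min A B with hμ
  obtain ⟨w, hw⟩ := pow_dvd_of_mem (ev2 A B c N y κ) (C (PowerSeries.X ^ μ)) (fun j => by
    fin_cases j
    · simp only [ev2, Fin.zero_eta, MvPolynomial.aeval_X, Matrix.cons_val_zero]
      exact (_root_.map_dvd C (pow_dvd_pow _ (min_le_left _ _))).mul_right _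
    · simp only [ev2, Fin.mk_one, MvPolynomial.aeval_X, Matrix.cons_val_one, Matrix.cons_val_zero]
      exact (_root_.map_dvd C (pow_dvd_pow _ (min_le_right _ _))).mul_right _) (lin_part h)
  rw [map_sub, sub_eq_iff_eq_add] at hw
  obtain ⟨c, rfl⟩ := Nat.exists_eq_add_of_le' hc
  set κ' : (PowerSeries k)[X] := κ.map (algebraMap k _) with hκ'
  have e1 : (ev2 A B (c + 1) N y κ h).coeff 1 = PowerSeries.X ^ μ * PowerSeries.X ^ μ * w.coeff 1 +
      (PowerSeries.C c₁ * PowerSeries.X ^ A + PowerSeries.C (c₂ * κ.coeff 1) * PowerSeries.X ^ B +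
        PowerSeries.X ^ (B + 1) * (PowerSeries.C c₂ * PowerSeries.X ^ c * (κ' * κ' ^ N).coeff 1)) := by
    rw [hw, ← C_pow, coeff_add, coeff_C_mul, pow_two]
    congr 1
    have e2 : ∀ a : k, algebraMap k (PowerSeries k)[X] a = C (PowerSeries.C a) := fun a => rfl
    simp only [ev2, map_add, map_mul (MvPolynomial.aeval _), MvPolynomial.aeval_C,
      MvPolynomial.aeval_X, Matrix.cons_val_zero, Matrix.cons_val_one, e2, ← hκ']
    have e3 : κ' * (1 + C (PowerSeries.X ^ (c + 1)) * κ' ^ N) =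
        κ' + C (PowerSeries.X ^ (c + 1)) * (κ' * κ' ^ N) := by ring
    have e4 : κ'.coeff 1 = PowerSeries.C (κ.coeff 1) := by rw [hκ', coeff_map]; rfl
    rw [e3]
    simp only [coeff_add, coeff_C_mul, coeff_C_succ, coeff_X_one, e4, map_mul]
    ring
  intro hz
  have e5 := congrArg (PowerSeries.coeff μ) e1
  rw [hz, map_zero, ← pow_add, map_add, map_add, map_add, PowerSeries.coeff_X_pow_mul',
    if_neg (by omega), PowerSeries.coeff_X_pow_mul', if_neg (by omega), PowerSeries.coeff_C_mul,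
    PowerSeries.coeff_C_mul, PowerSeries.coeff_X_pow, PowerSeries.coeff_X_pow] at e5
  have hk1 : κ.coeff 1 ≠ 0 := fun h => by simp [h] at k2
  rcases lt_trichotomy A B with hAB | hAB | hAB
  · rw [if_pos (by omega), if_neg (by omega)] at e5
    exact h0 (by simpa using e5.symm)
  · rw [if_pos (by omega), if_pos (by omega)] at e5
    exact hy (by linear_combination (-y ^ 2) * e5 - c₂ * k2)
  · rw [if_neg (by omega), if_pos (by omega)] at e5
    exact mul_ne_zero h1 hk1 (by simpa using e5.symm)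

theorem ev1_sub_ev2 {𝔅 : Type u} [CommRing 𝔅] [Algebra k 𝔅] (F : Filt 𝔅) {A B c N n : ℕ} {y : k}
    {κ : k[X]} (hκ : X ^ n ∣ (C y + X) * κ - 1) {t : ℝ} (htn : t ≤ n) (x : 𝔅ˣ) (z : 𝔅)
    (hx : (x : 𝔅) - algebraMap k 𝔅 y ∈ F.J 1) (hz : z * (x : 𝔅) ^ N - 1 ∈ F.J t)
    (h : MvPolynomial (Fin 2) k) :
    ev1 A B c x z h - (ev2 A B c N y κ h).eval₂ (PowerSeries.map (algebraMap k 𝔅))
      (PowerSeries.C ((x : 𝔅) - algebraMap k 𝔅 y)) ∈ F.ps.J t := by
  set X₀ := (x : 𝔅) - algebraMap k 𝔅 y with hX₀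
  set i₀ := aeval X₀ κ with hi₀
  have h1 : (x : 𝔅) * i₀ - 1 ∈ F.J t := by
    obtain ⟨w, hw⟩ := hκ
    have := congrArg (aeval X₀) hw
    simp only [map_sub, map_mul, map_add, aeval_C, aeval_X, map_one, map_pow] at this
    rw [hX₀, add_sub_cancel, ← hX₀] at this
    rw [this]
    exact Ideal.mul_mem_right _ _ (F.pow_one' hx htn)
  have h2 : ((x⁻¹ : 𝔅ˣ) : 𝔅) - i₀ ∈ F.J t := by
    have : ((x⁻¹ : 𝔅ˣ) : 𝔅) - i₀ = -((x⁻¹ : 𝔅ˣ) : 𝔅) * ((x : 𝔅) * i₀ - 1) := by
      linear_combination i₀ * x.inv_mul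
    rw [this]
    exact Ideal.mul_mem_left _ _ h1
  have h3 : z - i₀ ^ N ∈ F.J t := by
    have h4 : ((x : 𝔅) * i₀) ^ N - 1 ^ N ∈ F.J t := by
      obtain ⟨w, hw⟩ := sub_dvd_pow_sub_pow ((x : 𝔅) * i₀) 1 N
      rw [hw]
      exact Ideal.mul_mem_right _ _ h1
    have : z - i₀ ^ N = i₀ ^ N * (z * (x : 𝔅) ^ N - 1) - z * (((x : 𝔅) * i₀) ^ N - 1 ^ N) := by
      rw [mul_pow, one_pow]; ring
    rw [this]
    exact sub_mem (Ideal.mul_mem_left _ _ hz) (Ideal.mul_mem_left _ _ h4)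
  have h5 : (κ.map (algebraMap k (PowerSeries k))).eval₂ (PowerSeries.map (algebraMap k 𝔅))
      (PowerSeries.C X₀) = PowerSeries.C i₀ := by
    rw [eval₂_map, hi₀, aeval_def, hom_eval₂]
    congr 1
    ext a : 1
    simp [PowerSeries.algebraMap_apply]
  induction h using MvPolynomial.induction_on with
  | C a =>
    have e2 : algebraMap k (PowerSeries k)[X] a = C (PowerSeries.C a) := rfl
    simp [ev1, ev2, e2, PowerSeries.algebraMap_apply]
  | add p q hp hq =>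
    rw [map_add, map_add, eval₂_add, add_sub_add_comm]
    exact add_mem hp hq
  | mul_X p i hp =>
    rw [map_mul, map_mul, eval₂_mul]
    have key : ∀ a b a' b' : PowerSeries 𝔅, a - a' ∈ F.ps.J t → b - b' ∈ F.ps.J t →
        a * b - a' * b' ∈ F.ps.J t := fun a b a' b' ha hb => by
      have : a * b - a' * b' = (a - a') * b + a' * (b - b') := by ring
      rw [this]
      exact add_mem (Ideal.mul_mem_right _ _ ha) (Ideal.mul_mem_left _ _ hb)
    refine key _ _ _ _ hp ?_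
    fin_cases i
    · simp [ev1, ev2, xi, hX₀, mul_comm, eval₂_pow]
    · simp only [ev1, ev2, H35.eta, eta0, Fin.mk_one, MvPolynomial.aeval_X, Matrix.cons_val_one,
        Matrix.cons_val_zero, eval₂_mul, eval₂_add, eval₂_pow, eval₂_C, eval₂_one, h5, map_pow,
        PowerSeries.map_X]
      rw [mul_comm (PowerSeries.C _), mul_assoc]
      refine key _ _ _ _ (by simp) (key _ _ _ _ ?_ ?_)
      · rw [← map_sub]
        exact Filt.C_mem_ps h2
      · rw [add_sub_add_left_eq_sub, ← mul_sub, ← map_pow, ← map_sub]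
        exact Ideal.mul_mem_left _ _ (Filt.C_mem_ps h3)

theorem exists_comp {L : Type*} [Field L] {u : L[X]} (h0 : u.coeff 0 = 0) (h1 : u.coeff 1 ≠ 0)
    (β : L[X]) (n : ℕ) : ∃ ξ : L[X], (∀ j, n ≤ j → ξ.coeff j = 0) ∧ X ^ n ∣ ξ.comp u - β := by
  obtain ⟨v, rfl⟩ := X_dvd_iff.2 h0
  rw [coeff_X_mul] at h1
  induction n with
  | zero => exact ⟨0, by simp, by simp⟩
  | succ n ih =>
    obtain ⟨ξ, g1, r, hr⟩ := ih
    refine ⟨ξ - C (r.coeff 0 / v.coeff 0 ^ n) * X ^ n, fun j hj => ?_, ?_⟩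
    · rw [coeff_sub, g1 j (by omega), coeff_C_mul, coeff_X_pow, if_neg (by omega)]
      simp
    · have : (ξ - C (r.coeff 0 / v.coeff 0 ^ n) * X ^ n).comp (X * v) - β =
          X ^ n * (r - C (r.coeff 0 / v.coeff 0 ^ n) * v ^ n) := by
        rw [sub_comp, mul_comp, C_comp, pow_comp, X_comp, mul_pow]
        linear_combination hr
      rw [this, pow_succ]
      refine mul_dvd_mul_left _ (X_dvd_iff.2 ?_)
      rw [coeff_sub, coeff_C_mul, coeff_zero_eq_eval_zero (v ^ n), eval_pow,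
        ← coeff_zero_eq_eval_zero]
      field_simp
      ring

/-- **Vanishing**, after inverting the denominators of the germ. -/
theorem vanish_loc {A L B : Type*} [CommRing A] [IsDomain A] [Field L] [Algebra A L]
    [IsFractionRing A L] [CommRing B] (g : A →+* B) (F : Filt B)
    (hsat : ∀ c : A, c ≠ 0 → ∀ (s : ℝ) (f : B), g c * f ∈ F.J s → f ∈ F.J s)
    {α₀ β₀ : A[X]} {ξ : L[X]} {t M : ℝ} {ht : 0 ≤ t} (ht1 : 1 ≤ t) {n : ℕ} (htn : t ≤ n)
    (hξ : X ^ n ∣ ξ.comp ((α₀ - C (α₀.coeff 0)).map (algebraMap A L)) - β₀.map (algebraMap A L))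
    {X₀ α β : B} (hX : X₀ ∈ F.J 1) (hα : α - α₀.eval₂ g X₀ ∈ F.J t) (hβ : β - β₀.eval₂ g X₀ ∈ F.J t)
    {P : MvPolynomial (Fin 2) A}
    (hP : sub (algebraMap A L (α₀.coeff 0)) ξ (MvPolynomial.map (algebraMap A L) P) ∈
      (wf X ht).J M) : MvPolynomial.eval₂ g ![α, β] P ∈ F.J M := by
  set N : Submonoid B := (nonZeroDivisors A).map g with hN
  set ρ := algebraMap B (Localization N) with hρ
  set gL : L →+* Localization N := IsLocalization.map (M := nonZeroDivisors A) (T := N)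
    (Localization N) g (Submonoid.le_comap_map _) with hgL
  have hc : gL.comp (algebraMap A L) = ρ.comp g := IsLocalization.map_comp _
  have hc' : ∀ a, gL (algebraMap A L a) = ρ (g a) := fun a => congrArg (fun f => f a) hc
  have hev : ∀ p : A[X], (p.map (algebraMap A L)).eval₂ gL (ρ X₀) = ρ (p.eval₂ g X₀) := fun p => by
    rw [eval₂_map, hc, hom_eval₂]
  set F' := F.map ρ with hF'
  have hm : ∀ {s : ℝ} {f : B}, f ∈ F.J s → ρ f ∈ F'.J s := fun h => Ideal.mem_map_of_mem ρ h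
  set u₀ := (α₀ - C (α₀.coeff 0)).eval₂ g X₀ with hu₀
  have hu1 : u₀ ∈ F.J 1 := by
    obtain ⟨w, hw⟩ : X ∣ α₀ - C (α₀.coeff 0) := X_dvd_iff.2 (by simp)
    rw [hu₀, hw, eval₂_mul, eval₂_X]
    exact Ideal.mul_mem_right _ _ hX
  have hu2 : α - g (α₀.coeff 0) - u₀ ∈ F.J t := by
    rw [hu₀, eval₂_sub, eval₂_C, sub_sub_sub_cancel_right]
    exact hα
  set u := ρ (α - g (α₀.coeff 0)) with hu
  have hu3 : u ∈ F'.J 1 := by
    have := add_mem (F.anti ht1 hu2) hu1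
    rw [sub_add_cancel] at this
    exact hm this
  have hw : ρ β - ξ.eval₂ gL u ∈ F'.J t := by
    have g1 : ξ.eval₂ gL (ρ u₀) - ρ (β₀.eval₂ g X₀) ∈ F'.J t := by
      obtain ⟨w, hw⟩ := hξ
      have := congrArg (eval₂ gL (ρ X₀)) hw
      rw [eval₂_sub, eval₂_comp, hev, hev, eval₂_mul, eval₂_pow, eval₂_X] at this
      rw [hu₀, this]
      exact Ideal.mul_mem_right _ _ (F'.pow_one' (hm hX) htn)
    have g2 : ξ.eval₂ gL u - ξ.eval₂ gL (ρ u₀) ∈ F'.J t := by
      obtain ⟨w, hw⟩ := sub_dvd_eval_sub u (ρ u₀) (ξ.map gL)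
      rw [eval_map, eval_map] at hw
      rw [hw, hu, ← map_sub]
      exact Ideal.mul_mem_right _ _ (hm hu2)
    have := sub_mem (sub_mem (hm hβ) g1) g2
    rw [map_sub] at this
    convert this using 1
    ring
  have h1 := eval₂_mem F' (eval₂RingHom gL u) (by simpa using hu3) hw hP
  rw [eval₂_sub', hc', hu, ← map_add, add_sub_cancel, add_sub_cancel, MvPolynomial.eval₂_map, hc] at h1
  have h2 : ρ (MvPolynomial.eval₂ g ![α, β] P) ∈ (F.J M).map ρ := by
    have : ρ ∘ ![α, β] = ![ρ α, ρ β] := by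
      funext i
      fin_cases i <;> rfl
    rw [MvPolynomial.eval₂_comp_left, this]
    exact h1
  obtain ⟨m, ⟨c, hc0, rfl⟩, h3⟩ :=
    (IsLocalization.algebraMap_mem_map_algebraMap_iff N (Localization N) _ _).1 h2
  exact hsat c (nonZeroDivisors.ne_zero hc0) _ _ h3

/-- The divisibility conditions along the germ of `z = x ^ (-N)` at `x = y`. -/
theorem point_dvdV {A B c Q N n n' : ℕ} (xy : Fin 2 → MvPolynomial (Fin 2) k) {y : k} (hy : y ≠ 0)
    {κ : k[X]} {t M : ℝ} {ht : 0 ≤ t} (ht1 : 1 ≤ t) (hn : t ≤ n) (hn' : t ≤ n')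
    (hκ : X ^ n ∣ (C y + X) * κ - 1) {ξ : (FractionRing (PowerSeries k))[X]}
    (hξ : X ^ n' ∣ ξ.comp ((ev2 A B c N y κ (xy 0) - C ((ev2 A B c N y κ (xy 0)).coeff 0)).map
      (algebraMap _ _)) - (ev2 A B c N y κ (xy 1)).map (algebraMap _ _))
    {P : MvPolynomial (Fin 2) (PowerSeries k)}
    (hP : sub (algebraMap _ _ ((ev2 A B c N y κ (xy 0)).coeff 0)) ξ
      (MvPolynomial.map (algebraMap _ _) P) ∈ (wf X ht).J M)
    {e H : ℕ} {lam : ℕ → LaurentPolynomial k} {l : ℕ → k[X]}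
    (hl : ∀ q ≤ Q, toLaurent (l q) = lam q * LaurentPolynomial.T H)
    (he : ∀ (𝔅 : Type u) [CommRing 𝔅] [Algebra k 𝔅] (x : 𝔅ˣ) (z : 𝔅),
        PowerSeries.coeff e (MvPolynomial.eval₂ (PowerSeries.map (algebraMap k 𝔅))
          (fun j => ev1 A B c x z (xy j)) P) =
          ∑ q ∈ Finset.range (Q + 1), LaurentPolynomial.eval₂ (algebraMap k 𝔅) x (lam q) * z ^ q)
    (j : ℕ) : (X - C y) ^ ⌈M - t * j⌉₊ ∣
      ∑ q ∈ Finset.range (Q + 1), C (q.choose j : k) * (l q * X ^ (N * (Q - q))) := by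
  set F₀ := wf (X - C y : k[X]) ht with hF₀
  set J := F₀.J M with hJ
  set mk := Ideal.Quotient.mk J with hmk
  set F := F₀.map mk with hF
  have hFM : F.J M = ⊥ := Ideal.map_quotient_self J
  have hal : ∀ a : k, algebraMap k (k[X][X] ⧸ J) a = mk (C (C a)) := fun a => rfl
  have h1 : mk (C X) - algebraMap k _ y ∈ F.J 1 := by
    rw [hal, ← map_sub, ← C_sub]
    exact Ideal.mem_map_of_mem _ (C_mem_wf ht (by simp))
  have hu : IsUnit (mk (C X)) := by
    have h2 : IsNilpotent (mk (C X) - algebraMap k _ y) :=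
      ⟨⌈M⌉₊, by
        have := F.pow_one' h1 (Nat.le_ceil M)
        rwa [hFM, Ideal.mem_bot] at this⟩
    have h3 := h2.isUnit_add_right_of_commute
      ((IsUnit.mk0 y hy).map (algebraMap k (k[X][X] ⧸ J))) (Commute.all _ _)
    rwa [sub_add_cancel] at h3
  obtain ⟨x, hx⟩ := hu
  set x' := ((x⁻¹ : (k[X][X] ⧸ J)ˣ) : k[X][X] ⧸ J) with hx'
  have hxx : ∀ m : ℕ, (x : k[X][X] ⧸ J) ^ m * x' ^ m = 1 := fun m => by
    rw [← mul_pow, hx', Units.mul_inv, one_pow]
  have hz : mk (1 + X) * x' ^ N * (x : k[X][X] ⧸ J) ^ N - 1 ∈ F.J t := by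
    have : mk (1 + X) * x' ^ N * (x : k[X][X] ⧸ J) ^ N - 1 = mk X := by
      rw [map_add, map_one]
      linear_combination (1 + mk X) * hxx N
    rw [this]
    exact Ideal.mem_map_of_mem _ (X_mem_wf ht)
  rw [← hx] at h1
  have hv := vanish_loc (PowerSeries.map (algebraMap k (k[X][X] ⧸ J))) F.ps
    (fun c hc s f => F.ps_sat hc) ht1 hn' hξ (Filt.C_mem_ps h1)
    (ev1_sub_ev2 F hκ hn x _ h1 hz (xy 0)) (ev1_sub_ev2 F hκ hn x _ h1 hz (xy 1)) hP
  have e0 : ![ev1 A B c x (mk (1 + X) * x' ^ N) (xy 0), ev1 A B c x (mk (1 + X) * x' ^ N) (xy 1)] =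
      fun j => ev1 A B c x (mk (1 + X) * x' ^ N) (xy j) := by
    funext j
    fin_cases j <;> rfl
  have hv1 := Filt.mem_ps.1 hv e
  rw [e0, hFM, Ideal.mem_bot, he] at hv1
  have h4 : (∑ q ∈ Finset.range (Q + 1), C (l q * X ^ (N * (Q - q))) * (1 + X) ^ q : k[X][X]) ∈ J := by
    rw [← Ideal.Quotient.eq_zero_iff_mem, map_sum]
    have h5 := congrArg (fun w => (x : k[X][X] ⧸ J) ^ (H + N * Q) * w) hv1
    simp only [mul_zero, Finset.mul_sum] at h5
    rw [← h5]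
    refine Finset.sum_congr rfl fun q hq => ?_
    rw [Finset.mem_range] at hq
    have h6 : ∀ f : k[X], mk (C f) = aeval (x : k[X][X] ⧸ J) f := by
      intro f
      rw [hx, ← aeval_CX]
      exact (aeval_algHom_apply (Ideal.Quotient.mkₐ k J) (C X) f).symm
    rw [map_mul, map_pow, ← hmk, h6, map_mul, map_pow, aeval_X, eval_of_toLaurent (hl q (by omega))]
    have h8 : H + N * Q = H + N * (Q - q) + N * q := by
      rw [add_assoc, ← mul_add]
      congr 2
      omega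
    rw [h8, pow_add, pow_add, mul_pow, ← pow_mul]
    linear_combination (-(LaurentPolynomial.eval₂ (algebraMap k (k[X][X] ⧸ J)) x (lam q) *
      (x : k[X][X] ⧸ J) ^ H * (x : k[X][X] ⧸ J) ^ (N * (Q - q)) * mk (1 + X) ^ q)) * hxx (N * q)
  have h9 := h4 j
  rw [finset_sum_coeff] at h9
  convert h9 using 2 with q _
  rw [coeff_C_mul, coeff_one_add_X_pow, map_natCast, mul_comm]

theorem ExV.clear {ι : Type} {A L : Type*} [CommRing A] [IsDomain A] [Field L] [Algebra A L]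
    [IsFractionRing A L] {S : Finset (Fin 2 →₀ ℕ)} {t : ι → ℝ} {ht : ∀ i, 0 ≤ t i} {M : ι → ℝ}
    {a : ι → L} {ξ : ι → L[X]} (h : ExV S ht M a ξ) :
    ∃ P : MvPolynomial (Fin 2) A, P ≠ 0 ∧ P.support ⊆ S ∧
      ∀ i, sub (a i) (ξ i) (MvPolynomial.map (algebraMap A L) P) ∈ (wf X (ht i)).J (M i) := by
  classical
  obtain ⟨P, h0, hS, hP⟩ := h
  obtain ⟨b, hb⟩ := IsLocalization.exist_integer_multiples (nonZeroDivisors A) P.support
    (fun δ => MvPolynomial.coeff δ P)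
  have hb0 : algebraMap A L b ≠ 0 := IsFractionRing.to_map_ne_zero_of_mem_nonZeroDivisors b.2
  obtain ⟨P', hP'⟩ : MvPolynomial.C (algebraMap A L b) * P ∈
      Set.range (MvPolynomial.map (σ := Fin 2) (algebraMap A L)) := by
    refine MvPolynomial.mem_range_map_iff_coeffs_subset.2 fun c hc => ?_
    obtain ⟨δ, hδ, rfl⟩ := MvPolynomial.mem_coeffs_iff.1 hc
    rw [MvPolynomial.coeff_C_mul, ← Algebra.smul_def]
    refine hb δ ?_
    rw [MvPolynomial.mem_support_iff, MvPolynomial.coeff_C_mul] at hδ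
    exact MvPolynomial.mem_support_iff.2 (right_ne_zero_of_mul hδ)
  refine ⟨P', ?_, fun δ hδ => hS ?_, fun i => ?_⟩
  · rintro rfl
    rw [map_zero] at hP'
    exact mul_ne_zero (MvPolynomial.C_ne_zero.2 hb0) h0 hP'.symm
  · rw [← MvPolynomial.support_map_of_injective _ (IsFractionRing.injective A L), hP',
      MvPolynomial.mem_support_iff, MvPolynomial.coeff_C_mul] at hδ
    exact MvPolynomial.mem_support_iff.2 (right_ne_zero_of_mul hδ)
  · rw [hP', sub_C_mul]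
    exact Ideal.mul_mem_left _ _ (hP i)

/-- **The core theorem.** -/
theorem coreV [Infinite k] {ι : Type} [Fintype ι] {d : ℕ} (hd : 1 ≤ d) {t M : ι → ℝ}
    (ht : ∀ i, 0 ≤ t i) (ht1 : ∀ i, 1 ≤ t i) {g : ℝ} (hg : 9 < g) (hT : ∑ i, t i ≤ g)
    (hM : d * √g ≤ ∑ i, M i) :
    ∃ (a : ι → FractionRing (PowerSeries k)) (ξ : ι → (FractionRing (PowerSeries k))[X]),
      (∀ i j, t i ≤ (j : ℕ) → (ξ i).coeff j = 0) ∧ ¬ ExV (tri d) ht M a ξ := by
  classical
  set φ : ℕ → ℕ := fun j => ∑ a, ⌈M a - t a * j⌉₊ with hφ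
  have hs := Real.sq_sqrt (by linarith : 0 ≤ g)
  obtain ⟨u, v, hv, hu, H⟩ := exists_slopeR (n := 9) (e := 3 * d) φ (σ₀ := 3 * √g) (by norm_num)
    (by
      have : (3 : ℝ) < √g := Real.lt_sqrt_of_sq_lt (by linarith)
      push_cast
      linarith) (fun j => by
      have h1 : ∑ a, M a - (∑ a, t a) * j ≤ φ j := by
        rw [hφ, Finset.sum_mul, ← Finset.sum_sub_distrib]
        push_cast
        exact Finset.sum_le_sum fun a _ => Nat.le_ceil _
      have h2 := mul_le_mul_of_nonneg_right hT (by positivity : (0 : ℝ) ≤ j)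
      push_cast
      nlinarith)
  obtain ⟨A, B, N, hA, hB, hw⟩ := arith (s := 9) (D := (3 * d : ℕ)) φ (by norm_num) (by norm_num)
    (by omega) hv hu H
  obtain ⟨c, xy, hc, c1, c2, hxy⟩ := lab_plane (k := k) d hA hB
  obtain ⟨y, hyi, hy0, hy1⟩ : ∃ y : ι → k, Function.Injective y ∧ (∀ a, y a ≠ 0) ∧
      ∀ a, MvPolynomial.coeff (Finsupp.single 0 1) (xy 0) * y a ^ 2 ≠
        MvPolynomial.coeff (Finsupp.single 1 1) (xy 0) := by
    set p : k[X] := X * (C (MvPolynomial.coeff (Finsupp.single 0 1) (xy 0)) * X ^ 2 -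
      C (MvPolynomial.coeff (Finsupp.single 1 1) (xy 0))) with hp
    have hp0 : p ≠ 0 := mul_ne_zero X_ne_zero fun h => c1 (by simpa using congrArg (coeff · 2) h)
    have : Infinite {a : k // a ∉ p.roots.toFinset} :=
      (Set.Finite.infinite_compl p.roots.toFinset.finite_toSet).to_subtype
    let f : ι ↪ {a : k // a ∉ p.roots.toFinset} := (Fintype.equivFin ι).toEmbedding.trans
      (Fin.valEmbedding.trans (Infinite.natEmbedding _))
    have hf : ∀ a, (f a).1 * (MvPolynomial.coeff (Finsupp.single 0 1) (xy 0) * (f a).1 ^ 2 -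
        MvPolynomial.coeff (Finsupp.single 1 1) (xy 0)) ≠ 0 := fun a h => (f a).2 (by
      rw [Multiset.mem_toFinset, mem_roots hp0, IsRoot.def]
      generalize (f a).1 = w at h
      simpa [hp] using h)
    exact ⟨fun a => f a, Subtype.val_injective.comp f.injective,
      fun a => left_ne_zero_of_mul (hf a), fun a => sub_ne_zero.1 (right_ne_zero_of_mul (hf a))⟩
  have hκ : ∀ a, ∃ κ : k[X], X ^ (⌈t a⌉₊ + 2) ∣ (C (y a) + X) * κ - 1 := fun a => by
    have h1 : IsCoprime (X : k[X]) (C (y a) + X) :=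
      irreducible_X.coprime_iff_not_dvd.2 (by rw [X_dvd_iff]; simpa using hy0 a)
    obtain ⟨b, κ, h2⟩ := h1.pow_left (m := ⌈t a⌉₊ + 2)
    exact ⟨κ, -b, by linear_combination h2⟩
  choose κ hκ using hκ
  have hξ := fun a => exists_comp (L := FractionRing (PowerSeries k))
    (u := (ev2 A B c N (y a) (κ a) (xy 0) - C ((ev2 A B c N (y a) (κ a) (xy 0)).coeff 0)).map
      (algebraMap _ _)) (by simp) (by
        rw [coeff_map, coeff_sub, coeff_C_succ, sub_zero]
        exact (map_ne_zero_iff _ (IsFractionRing.injective _ _)).2 (ev2_coeff_one hA hB hc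
          ((pow_dvd_pow _ (by omega)).trans (hκ a)) c1 c2 (hy1 a)))
    ((ev2 A B c N (y a) (κ a) (xy 1)).map (algebraMap _ _)) ⌈t a⌉₊
  choose ξ hξ0 hξ using hξ
  refine ⟨fun a => algebraMap _ _ ((ev2 A B c N (y a) (κ a) (xy 0)).coeff 0), ξ,
    fun a j hj => hξ0 a j (Nat.ceil_le.2 hj), fun hex => ?_⟩
  obtain ⟨P, hP0, hPS, hPm⟩ := hex.clear (A := PowerSeries k)
  obtain ⟨e, lam, ⟨q₀, hq₀, hlam₀⟩, hwin, hev⟩ := hxy P hP0 hPS
  obtain ⟨H₀, l, hl⟩ := exists_poly (d / 3) lam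
  refine (fun hν => ?_ : (∀ q ≤ d / 3, l q * X ^ (N * (d / 3 - q)) = 0) → False)
    (tent (Q := d / 3) (fun q => l q * X ^ (N * (d / 3 - q))) φ
      (fun j => ∏ a, (X - C (y a)) ^ ⌈M a - t a * j⌉₊) (fun j => (prod_facts _ y hy0 _).2.1)
      (fun j => (prod_facts _ y hy0 _).2.2.ge) ?_ ?_)
  · have h4 : l q₀ = 0 :=
      (mul_eq_zero.1 (hν q₀ hq₀)).resolve_right (pow_ne_zero _ X_ne_zero)
    have h5 := hl q₀ hq₀
    rw [h4, map_zero] at h5
    exact hlam₀ ((LaurentPolynomial.isUnit_T H₀).mul_left_eq_zero.1 h5.symm)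
  · intro j
    exact prod_dvd _ hyi _ fun a _ => point_dvdV xy (hy0 a) (ht1 a)
      ((Nat.le_ceil _).trans (by push_cast; linarith)) (Nat.le_ceil _) (hκ a) (hξ a) (hPm a) hl hev j
  · intro j
    obtain ⟨A', hA'⟩ := hw j
    have key : ∀ q ≤ d / 3, ∀ i : ℕ, (l q * X ^ (N * (d / 3 - q))).coeff i ≠ 0 →
        Wd 9 (9 : ℕ) (3 * d : ℕ) (3 * d : ℕ) A B N q ((i : ℤ) - H₀ - N * (d / 3 : ℕ)) := by
      intro q hq i hi
      rw [coeff_mul_X_pow'] at hi
      split_ifs at hi with hle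
      swap
      · exact absurd rfl hi
      obtain ⟨j, rfl⟩ := Nat.exists_eq_add_of_le' hle
      rw [Nat.add_sub_cancel, coeff_of_toLaurent (hl q hq)] at hi
      obtain ⟨g1, g2⟩ := hwin q hq _ hi
      have e1 : ((j + N * (d / 3 - q) : ℕ) : ℤ) - H₀ - N * (d / 3 : ℕ) + N * q = j - H₀ := by
        rw [Nat.cast_add, Nat.cast_mul, Nat.cast_sub hq]
        ring
      unfold Wd
      rw [e1]
      push_cast at g1 g2 ⊢
      constructor <;> linarith
    refine ⟨A' + H₀ + N * (d / 3 : ℕ), fun q₁ q₂ i h12 hq2 w1 w2 => ?_⟩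
    have := hA' q₁ q₂ _ h12 (by omega) (key q₁ (by omega) i w1) (key q₂ hq2 i w2)
    omega

end Vale.Agent.N279V
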