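import Mathlib.Analysis.Calculus.ContDiff.FTaylorSeries
import Mathlib.Analysis.Complex.Basic
import Mathlib.LinearAlgebra.Projectivization.Basic
import Mathlib.RingTheory.Nullstellensatz
import Mathlib.RingTheory.PowerSeries.Basic

namespace Vale.Agent.N279V

/-- The multiplicity of the plane curve `F = 0` at `p`: the least order of a nonvanishing
derivative of `F` at `p`. -/
noncomputable def mult (F : MvPolynomial (Fin 3) ℂ) (p : Projectivization ℂ (Fin 3 → ℂ)) : ℕ∞ :=
  ⨅ k ∈ {k : ℕ | iteratedFDeriv ℂ k (fun v => MvPolynomial.eval v F) p.rep ≠ 0}, (k : ℕ∞)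

/-- A set of `r`-tuples of points of the plane is Zariski closed if the tuples of homogeneous
coordinates of its members are the zeros of an ideal. -/
def ZClosed {r : ℕ} (Z : Set (Fin r → Projectivization ℂ (Fin 3 → ℂ))) : Prop :=
  ∃ I : Ideal (MvPolynomial (Fin r × Fin 3) ℂ), ∀ (v : Fin r → Fin 3 → ℂ) (hv : ∀ i, v i ≠ 0),
    (fun i => Projectivization.mk ℂ (v i) (hv i)) ∈ Z ↔
      (fun x : Fin r × Fin 3 => v x.1 x.2) ∈ MvPolynomial.zeroLocus ℂ I

/-- The expansion `P (a + X, ξ(X) + W)`, a polynomial in `W` over power series in `X`. -/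
noncomputable def expand {K : Type} [Field K] (a : K) (ξ : PowerSeries K)
    (P : MvPolynomial (Fin 2) K) : Polynomial (PowerSeries K) :=
  MvPolynomial.aeval
    ![Polynomial.C (PowerSeries.C a + PowerSeries.X), Polynomial.C ξ + Polynomial.X] P

/-- The quasi-monomial valuation with weights `(1, t)` along the germ `y = ξ (x - a)`: the least
`i + t j` over the monomials `X ^ i W ^ j` of the expansion. -/
noncomputable def val {K : Type} [Field K] (a : K) (ξ : PowerSeries K) (t : ℝ)
    (P : MvPolynomial (Fin 2) K) : ℝ :=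
  sInf {s | ∃ i j : ℕ, PowerSeries.coeff i ((expand a ξ P).coeff j) ≠ 0 ∧ s = i + t * j}

/-- The bigraded algebra generated by the `P u ^ d w ^ m` with `deg P ≤ d` and
`t i * m ≤ v i (P)` for all `i`. -/
noncomputable def rees {K : Type} [Field K] {r : ℕ} (a : Fin r → K) (ξ : Fin r → PowerSeries K)
    (t : Fin r → ℝ) : Subalgebra K (MvPolynomial (Fin 2) (MvPolynomial (Fin 2) K)) :=
  Algebra.adjoin K {G | ∃ (P : MvPolynomial (Fin 2) K) (d m : ℕ), P.totalDegree ≤ d ∧
    (∀ i, t i * m ≤ val (a i) (ξ i) (t i) P) ∧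
      G = MvPolynomial.C P * MvPolynomial.X 0 ^ d * MvPolynomial.X 1 ^ m}

end Vale.Agent.N279V
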