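import Vale.Agent.N279.Main
import Vale.Agent.N279V.Defs

/-!
# Real filtrations, weighted vanishing, and specialisation
-/

set_option linter.all false

namespace Vale.Agent.N279V

open Polynomial

/-- A multiplicative filtration by ideals, indexed by the reals. -/
structure Filt (B : Type*) [CommRing B] where
  J : ℝ → Ideal B
  anti : ∀ {a b : ℝ}, a ≤ b → J b ≤ J a
  one : (1 : B) ∈ J 0
  mul : ∀ {a b : ℝ} {x y : B}, x ∈ J a → y ∈ J b → x * y ∈ J (a + b)

namespace Filt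

variable {A B : Type*} [CommRing A] [CommRing B]

theorem pow (F : Filt B) {a : ℝ} {x : B} (hx : x ∈ F.J a) (n : ℕ) : x ^ n ∈ F.J (n * a) := by
  induction n with
  | zero => simpa using F.one
  | succ n ih =>
    have := F.mul ih hx
    rw [pow_succ]
    convert this using 2
    push_cast
    ring

theorem pow_one' (F : Filt B) {x : B} (hx : x ∈ F.J 1) {s : ℝ} {n : ℕ} (h : s ≤ n) :
    x ^ n ∈ F.J s := F.anti (by simpa using h) (F.pow hx n)

/-- The image filtration. -/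
def map (F : Filt A) (f : A →+* B) : Filt B where
  J s := (F.J s).map f
  anti h := Ideal.map_mono (F.anti h)
  one := by simpa using Ideal.mem_map_of_mem f F.one
  mul {a b x y} hx hy := by
    have h1 := Ideal.mul_mem_mul hx hy
    rw [← Ideal.map_mul] at h1
    exact Ideal.map_mono (Ideal.mul_le.2 fun r hr s hs => F.mul hr hs) h1

/-- The coefficientwise filtration on power series. -/
noncomputable def ps (F : Filt B) : Filt (PowerSeries B) where
  J s := RingHom.ker (PowerSeries.map (Ideal.Quotient.mk (F.J s)))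
  anti {a b} h f hf := by
    rw [RingHom.mem_ker] at hf ⊢
    ext n
    have := congrArg (PowerSeries.coeff n) hf
    rw [PowerSeries.coeff_map, map_zero, Ideal.Quotient.eq_zero_iff_mem] at this ⊢
    exact F.anti h this
  one := by
    rw [RingHom.mem_ker, map_one]
    have : Subsingleton (B ⧸ F.J 0) :=
      Ideal.Quotient.subsingleton_iff.2 ((Ideal.eq_top_iff_one _).2 F.one)
    ext n
    exact Subsingleton.elim _ _
  mul {a b x y} hx hy := by
    rw [RingHom.mem_ker] at hx hy ⊢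
    ext n
    rw [PowerSeries.coeff_map, map_zero, Ideal.Quotient.eq_zero_iff_mem, PowerSeries.coeff_mul]
    refine Ideal.sum_mem _ fun p _ => F.mul ?_ ?_
    · have := congrArg (PowerSeries.coeff p.1) hx
      rwa [PowerSeries.coeff_map, map_zero, Ideal.Quotient.eq_zero_iff_mem] at this
    · have := congrArg (PowerSeries.coeff p.2) hy
      rwa [PowerSeries.coeff_map, map_zero, Ideal.Quotient.eq_zero_iff_mem] at this

theorem mem_ps {F : Filt B} {s : ℝ} {f : PowerSeries B} :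
    f ∈ F.ps.J s ↔ ∀ n, PowerSeries.coeff n f ∈ F.J s := by
  change f ∈ RingHom.ker _ ↔ _
  rw [RingHom.mem_ker, PowerSeries.ext_iff]
  simp only [PowerSeries.coeff_map, map_zero, Ideal.Quotient.eq_zero_iff_mem]

theorem C_mem_ps {F : Filt B} {s : ℝ} {b : B} (hb : b ∈ F.J s) : PowerSeries.C b ∈ F.ps.J s := by
  rw [mem_ps]
  intro n
  rw [PowerSeries.coeff_C]
  split_ifs
  · exact hb
  · exact Ideal.zero_mem _

theorem ps_sat {k : Type*} [Field k] [Algebra k B] (F : Filt B) {c : PowerSeries k} (hc : c ≠ 0)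
    {s : ℝ} {f : PowerSeries B} (h : PowerSeries.map (algebraMap k B) c * f ∈ F.ps.J s) :
    f ∈ F.ps.J s := by
  have h1 := PowerSeries.X_pow_order_mul_divXPowOrder (f := c)
  have h2 : IsUnit (PowerSeries.divXPowOrder c) := by
    rw [PowerSeries.isUnit_iff_constantCoeff, isUnit_iff_ne_zero]
    simpa [PowerSeries.constantCoeff_divXPowOrder_eq_zero_iff.not] using hc
  rw [← h1, map_mul, map_pow, PowerSeries.map_X, mul_right_comm,
    Ideal.mul_unit_mem_iff_mem _ (h2.map _)] at h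
  rw [mem_ps] at h ⊢
  intro n
  have := h (n + c.order.toNat)
  rwa [PowerSeries.coeff_X_pow_mul] at this

end Filt

variable {A B : Type*} [CommRing A] [CommRing B]

theorem ceil_le_add {a b t : ℝ} {j₁ j₂ : ℕ} :
    ⌈a + b - t * (j₁ + j₂ : ℕ)⌉₊ ≤ ⌈a - t * j₁⌉₊ + ⌈b - t * j₂⌉₊ := by
  rw [Nat.ceil_le]
  push_cast
  linarith [Nat.le_ceil (a - t * j₁), Nat.le_ceil (b - t * j₂)]

/-- The filtration of `A[W]` in which `π` has weight `1` and `W` has weight `t`. -/
def wf (π : A) {t : ℝ} (ht : 0 ≤ t) : Filt A[X] where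
  J s :=
    { carrier := {G | ∀ j : ℕ, π ^ ⌈s - t * j⌉₊ ∣ G.coeff j}
      add_mem' := fun {a b} ha hb j => by rw [coeff_add]; exact dvd_add (ha j) (hb j)
      zero_mem' := fun j => by simp
      smul_mem' := fun c G hG j => by
        rw [smul_eq_mul, coeff_mul]
        refine Finset.dvd_sum fun p hp => ?_
        rw [Finset.HasAntidiagonal.mem_antidiagonal] at hp
        refine ((pow_dvd_pow _ (Nat.ceil_mono ?_)).trans (hG p.2)).mul_left _
        have : (p.2 : ℝ) ≤ j := by exact_mod_cast (by omega : p.2 ≤ j)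
        nlinarith }
  anti {a b} h G hG j := (pow_dvd_pow _ (Nat.ceil_mono (by linarith))).trans (hG j)
  one j := by
    have : ⌈(0 : ℝ) - t * j⌉₊ = 0 := Nat.ceil_eq_zero.2 (by simp; positivity)
    rw [this, pow_zero]
    exact one_dvd _
  mul {a b x y} hx hy j := by
    rw [coeff_mul]
    refine Finset.dvd_sum fun p hp => ?_
    rw [Finset.HasAntidiagonal.mem_antidiagonal] at hp
    rw [← hp]
    refine (pow_dvd_pow _ ceil_le_add).trans ?_
    rw [pow_add]
    exact mul_dvd_mul (hx p.1) (hy p.2)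

theorem mem_wf {π : A} {t : ℝ} {ht : 0 ≤ t} {s : ℝ} {G : A[X]} :
    G ∈ (wf π ht).J s ↔ ∀ j : ℕ, π ^ ⌈s - t * j⌉₊ ∣ G.coeff j := Iff.rfl

theorem C_mem_wf {π : A} {t : ℝ} (ht : 0 ≤ t) {s : ℝ} {b : A} (hb : π ^ ⌈s⌉₊ ∣ b) :
    C b ∈ (wf π ht).J s := by
  intro j
  rw [coeff_C]
  split_ifs with h
  · simpa [h] using hb
  · exact dvd_zero _

theorem X_mem_wf {π : A} {t : ℝ} (ht : 0 ≤ t) : (X : A[X]) ∈ (wf π ht).J t := by
  intro j
  rw [coeff_X]
  split_ifs with h
  · simp [← h]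
  · exact dvd_zero _

/-- **Substitution.** -/
theorem eval₂_mem (F : Filt B) (ψ : A →+* B) {π : A} (hπ : ψ π ∈ F.J 1) {t : ℝ} {ht : 0 ≤ t}
    {w : B} (hw : w ∈ F.J t) {M : ℝ} {Q : A[X]} (hQ : Q ∈ (wf π ht).J M) :
    Q.eval₂ ψ w ∈ F.J M := by
  rw [eval₂_eq_sum, Polynomial.sum]
  refine Ideal.sum_mem _ fun j _ => ?_
  obtain ⟨c, hc⟩ := hQ j
  rw [hc, map_mul, map_pow, mul_right_comm]
  refine Ideal.mul_mem_right _ _ ?_
  have h1 := F.mul (F.pow_one' hπ (Nat.le_ceil (M - t * j))) (F.pow hw j)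
  convert h1 using 2
  ring

/-- The expansion `P (a + X, ξ(X) + W)` for a polynomial germ. -/
noncomputable def sub (a : A) (ξ : A[X]) : MvPolynomial (Fin 2) A →ₐ[A] A[X][X] :=
  MvPolynomial.aeval ![C (C a + X), C ξ + X]

theorem eval₂_sub' (g : A →+* B) (u w : B) (a : A) (ξ : A[X]) (P : MvPolynomial (Fin 2) A) :
    (sub a ξ P).eval₂ (eval₂RingHom g u) w =
      MvPolynomial.eval₂ g ![g a + u, ξ.eval₂ g u + w] P := by
  induction P using MvPolynomial.induction_on with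
  | C c => simp [sub, Polynomial.algebraMap_apply]
  | add p q hp hq => rw [map_add, eval₂_add, hp, hq, MvPolynomial.eval₂_add]
  | mul_X p i hp =>
    rw [map_mul, eval₂_mul, hp, MvPolynomial.eval₂_mul, MvPolynomial.eval₂_X]
    congr 1
    fin_cases i <;> simp [sub]

theorem map_sub' (φ : A →+* B) (a : A) (ξ : A[X]) (P : MvPolynomial (Fin 2) A) :
    (sub a ξ P).map (mapRingHom φ) = sub (φ a) (ξ.map φ) (MvPolynomial.map φ P) := by
  induction P using MvPolynomial.induction_on with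
  | C c => simp [sub, Polynomial.algebraMap_apply]
  | add p q hp hq => rw [map_add, Polynomial.map_add, hp, hq, map_add, map_add]
  | mul_X p i hp =>
    rw [map_mul, Polynomial.map_mul, hp, map_mul, map_mul, MvPolynomial.map_X]
    congr 1
    fin_cases i <;> simp [sub]

theorem sub_C_mul (a c : A) (ξ : A[X]) (P : MvPolynomial (Fin 2) A) :
    sub a ξ (MvPolynomial.C c * P) = C (C c) * sub a ξ P := by
  rw [map_mul]
  congr 1
  simp [sub, Polynomial.algebraMap_apply]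

variable {ι : Type}

/-- A nonzero polynomial with exponents in `S` and weighted orders at least `M i`. -/
def ExV (S : Finset (Fin 2 →₀ ℕ)) {t : ι → ℝ} (ht : ∀ i, 0 ≤ t i) (M : ι → ℝ) (a : ι → A)
    (ξ : ι → A[X]) : Prop :=
  ∃ P : MvPolynomial (Fin 2) A, P ≠ 0 ∧ P.support ⊆ S ∧
    ∀ i, sub (a i) (ξ i) P ∈ (wf X (ht i)).J (M i)

/-- The conditions. -/
abbrev Rows (t M : ι → ℝ) (L : ι → ℕ) : Type := Σ i, Σ j : Fin (L i), Fin ⌈M i - t i * j⌉₊

/-- The matrix of the vanishing conditions. -/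
noncomputable def matV (S : Finset (Fin 2 →₀ ℕ)) (t M : ι → ℝ) (L : ι → ℕ) (a : ι → A)
    (ξ : ι → A[X]) : Matrix (Rows t M L) S A :=
  fun x δ => ((sub (a x.1) (ξ x.1) (MvPolynomial.monomial δ.1 1)).coeff x.2.1).coeff x.2.2

theorem matV_map (φ : A →+* B) (S : Finset (Fin 2 →₀ ℕ)) (t M : ι → ℝ) (L : ι → ℕ) (a : ι → A)
    (ξ : ι → A[X]) :
    (matV S t M L a ξ).map φ = matV S t M L (fun i => φ (a i)) (fun i => (ξ i).map φ) := by
  ext x δ
  simp only [Matrix.map_apply, matV]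
  have := map_sub' φ (a x.1) (ξ x.1) (MvPolynomial.monomial δ.1 1)
  rw [MvPolynomial.map_monomial, φ.map_one] at this
  rw [← this, coeff_map, coe_mapRingHom, coeff_map]

theorem coeff_sub_poly {S : Finset (Fin 2 →₀ ℕ)} (t M : ι → ℝ) (L : ι → ℕ) (a : ι → A)
    (ξ : ι → A[X]) (x : S → A) (y : Rows t M L) :
    ((sub (a y.1) (ξ y.1) (N279.poly x)).coeff y.2.1).coeff y.2.2 =
      (matV S t M L a ξ).mulVec x y := by
  rw [N279.poly, map_sum, finset_sum_coeff, finset_sum_coeff, Matrix.mulVec, dotProduct]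
  refine Finset.sum_congr rfl fun δ _ => ?_
  have h : (MvPolynomial.monomial δ.1 (x δ) : MvPolynomial (Fin 2) A) =
      MvPolynomial.C (x δ) * MvPolynomial.monomial δ.1 1 := by
    rw [MvPolynomial.C_mul_monomial, mul_one]
  rw [h, sub_C_mul, coeff_C_mul, coeff_C_mul, matV, mul_comm]

theorem exV_iff {S : Finset (Fin 2 →₀ ℕ)} {t : ι → ℝ} (ht : ∀ i, 0 ≤ t i) {M : ι → ℝ} {L : ι → ℕ}
    (hL : ∀ i, M i ≤ t i * L i) (a : ι → A) (ξ : ι → A[X]) :
    ExV S ht M a ξ ↔ ∃ x : S → A, x ≠ 0 ∧ (matV S t M L a ξ).mulVec x = 0 := by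
  constructor
  · rintro ⟨P, hP0, hV, hm⟩
    have hP : P = N279.poly (fun δ : S => MvPolynomial.coeff δ.1 P) := by
      ext ε
      by_cases hε : ε ∈ S
      · exact (N279.coeff_poly (fun δ : S => MvPolynomial.coeff δ.1 P) ⟨ε, hε⟩).symm
      · rw [N279.coeff_poly_of_not _ hε]
        exact MvPolynomial.notMem_support_iff.1 fun h => hε (hV h)
    refine ⟨fun δ : S => MvPolynomial.coeff δ.1 P, fun h => hP0 ?_, ?_⟩
    · rw [hP, h]
      simp only [N279.poly, Pi.zero_apply, MvPolynomial.monomial_zero, Finset.sum_const_zero]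
    · funext y
      rw [← coeff_sub_poly, ← hP]
      exact X_pow_dvd_iff.1 (hm y.1 y.2.1) _ y.2.2.2
  · rintro ⟨x, hx, h⟩
    refine ⟨N279.poly x, fun h0 => hx ?_, fun ε hε => ?_, fun i j => ?_⟩
    · funext δ
      rw [← N279.coeff_poly x δ, h0, MvPolynomial.coeff_zero]
      rfl
    · by_contra h1
      exact MvPolynomial.mem_support_iff.1 hε (N279.coeff_poly_of_not x h1)
    · rcases lt_or_ge j (L i) with hj | hj
      · refine X_pow_dvd_iff.2 fun l hl => ?_
        have := coeff_sub_poly t M L a ξ x ⟨i, ⟨j, hj⟩, ⟨l, hl⟩⟩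
        rw [h] at this
        exact this
      · have : ⌈M i - t i * j⌉₊ = 0 := by
          rw [Nat.ceil_eq_zero]
          have h1 : (L i : ℝ) ≤ j := by exact_mod_cast hj
          nlinarith [hL i, ht i]
        rw [this, pow_zero]
        exact one_dvd _

/-- Kernels of matrices specialise. -/
theorem ker_transfer {σ I J F K L : Type*} [Fintype I] [Fintype J] [Field F] [Field K] [Algebra F K]
    [Field L] (N : Matrix I J (MvPolynomial σ F)) {v : σ → K} (hv : AlgebraicIndependent F v)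
    (h : ∃ x : J → K, x ≠ 0 ∧
      (N.map (MvPolynomial.aeval v : MvPolynomial σ F →ₐ[F] K).toRingHom).mulVec x = 0)
    (ψ : F →+* L) (w : σ → L) :
    ∃ x : J → L, x ≠ 0 ∧ (N.map (MvPolynomial.eval₂Hom ψ w)).mulVec x = 0 := by
  classical
  rw [N279.ker_map_iff _ hv, ← N279.ker_map_iff (MvPolynomial.map (σ := σ) ψ)
    (MvPolynomial.map_injective _ ψ.injective)] at h
  obtain ⟨y, hy, hMy⟩ := h
  by_contra hcon
  push Not at hcon
  obtain ⟨L0, hL0⟩ := P279.Gen.exists_left_inverse (N.map (MvPolynomial.eval₂Hom ψ w)) (by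
    intro x hx
    by_contra h
    exact hcon x h hx)
  have h1 : (L0.map (MvPolynomial.C : L →+* MvPolynomial σ L) *
      N.map (MvPolynomial.map ψ)).det = 0 := by
    rw [← Matrix.exists_mulVec_eq_zero_iff]
    exact ⟨y, hy, by rw [← Matrix.mulVec_mulVec, hMy, Matrix.mulVec_zero]⟩
  have h2 := congrArg (MvPolynomial.eval w) h1
  rw [RingHom.map_det, RingHom.mapMatrix_apply, Matrix.map_mul, map_zero] at h2
  have e1 : (L0.map (MvPolynomial.C : L →+* MvPolynomial σ L)).map (MvPolynomial.eval w) = L0 := by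
    ext i j
    simp only [Matrix.map_apply, MvPolynomial.eval_C]
  have e2 : (N.map (MvPolynomial.map ψ)).map (MvPolynomial.eval w) =
      N.map (MvPolynomial.eval₂Hom ψ w) := by
    ext i j
    simp only [Matrix.map_apply, MvPolynomial.eval_map, MvPolynomial.coe_eval₂Hom]
  rw [e1, e2, hL0, Matrix.det_one] at h2
  exact one_ne_zero h2

/-- The parameters of the germs. -/
abbrev Par (t : ι → ℝ) : Type := ι ⊕ {x : ι × ℕ // (x.2 : ℝ) < t x.1}

/-- The values of the parameters. -/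
def par (t : ι → ℝ) (a : ι → A) (c : ι → ℕ → A) : Par t → A :=
  Sum.elim a fun x => c x.1.1 x.1.2

theorem map_gen {F : Type*} [CommRing F] (t : ι → ℝ) (φ : MvPolynomial (Par t) F →+* A) (a : ι → A)
    (ξ : ι → A[X]) (hξ : ∀ i j, t i ≤ (j : ℕ) → (ξ i).coeff j = 0)
    (hφ : ∀ x, φ (MvPolynomial.X x) = par t a (fun i j => (ξ i).coeff j) x) (i : ι) :
    (∑ j ∈ Finset.range ⌈t i⌉₊, monomial j (if h : (j : ℝ) < t i then
      (MvPolynomial.X (Sum.inr ⟨(i, j), h⟩) : MvPolynomial (Par t) F) else 0)).map φ = ξ i := by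
  ext j
  rw [coeff_map, finset_sum_coeff]
  simp only [coeff_monomial, Finset.sum_ite_eq', Finset.mem_range, Nat.lt_ceil]
  split_ifs with h
  · rw [hφ]
    rfl
  · rw [map_zero, hξ i j (not_lt.1 h)]

theorem matV_gen {F : Type*} [CommRing F] {S : Finset (Fin 2 →₀ ℕ)} (t : ι → ℝ) {M : ι → ℝ}
    {L : ι → ℕ} (φ : MvPolynomial (Par t) F →+* A) (a : ι → A)
    (ξ : ι → A[X]) (hξ : ∀ i j, t i ≤ (j : ℕ) → (ξ i).coeff j = 0)
    (hφ : ∀ x, φ (MvPolynomial.X x) = par t a (fun i j => (ξ i).coeff j) x) :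
    (matV S t M L (fun i => (MvPolynomial.X (Sum.inl i) : MvPolynomial (Par t) F))
      (fun i => ∑ j ∈ Finset.range ⌈t i⌉₊, monomial j (if h : (j : ℝ) < t i then
        (MvPolynomial.X (Sum.inr ⟨(i, j), h⟩) : MvPolynomial (Par t) F) else 0))).map φ =
      matV S t M L a ξ := by
  rw [matV_map]
  congr 1
  · funext i
    exact hφ _
  · funext i
    exact map_gen t φ a ξ hξ hφ i

/-- **Transfer** from algebraically independent jets to arbitrary jets. -/
theorem transferV [Fintype ι] {F K L : Type*} [Field F] [Field K] [Algebra F K] [Field L]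
    (ψ : F →+* L) {S : Finset (Fin 2 →₀ ℕ)} {t : ι → ℝ} (ht : ∀ i, 0 ≤ t i) (ht1 : ∀ i, 1 ≤ t i)
    {M : ι → ℝ} {a : ι → K} {ξ : ι → K[X]} (hξ : ∀ i j, t i ≤ (j : ℕ) → (ξ i).coeff j = 0)
    (hv : AlgebraicIndependent F (par t a fun i j => (ξ i).coeff j)) (h : ExV S ht M a ξ)
    (a' : ι → L) (ξ' : ι → L[X]) (hξ' : ∀ i j, t i ≤ (j : ℕ) → (ξ' i).coeff j = 0) :
    ExV S ht M a' ξ' := by
  have hL : ∀ i, M i ≤ t i * (⌈M i⌉₊ : ℕ) := fun i =>
    (Nat.le_ceil (M i)).trans (le_mul_of_one_le_left (by positivity) (ht1 i))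
  rw [exV_iff ht hL] at h ⊢
  rw [← matV_gen t (MvPolynomial.eval₂Hom ψ (par t a' fun i j => (ξ' i).coeff j)) a' ξ' hξ'
    (fun x => by simp)]
  refine ker_transfer _ hv ?_ ψ _
  rwa [matV_gen t _ a ξ hξ (fun x => by simp)]

/-- A rational slope. -/
theorem exists_slopeR {n e : ℕ} (φ : ℕ → ℕ) {σ₀ : ℝ} (hn : 1 ≤ n) (hσ : (n : ℝ) < σ₀)
    (H : ∀ j : ℕ, σ₀ * (e - σ₀ * j) ≤ n * φ j) :
    ∃ u v : ℤ, 1 ≤ v ∧ n * v < u ∧
      ∀ j : ℕ, u * j ≤ e * v → u * (e * v - u * j) ≤ n * v ^ 2 * φ j := by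
  suffices h : ∃ σ : ℚ, (n : ℝ) < σ ∧ ∀ j ≤ e, (σ : ℝ) * (e - σ * j) ≤ n * φ j by
    obtain ⟨σ, h1, h2⟩ := h
    have hd : (0 : ℝ) < σ.den := by exact_mod_cast σ.den_pos
    have hs : (σ.num : ℝ) = σ * σ.den := by rw [Rat.cast_def]; field_simp
    have hu : (n : ℤ) * σ.den < σ.num := by
      have : (n : ℝ) * σ.den < σ.num := by rw [hs]; gcongr
      exact_mod_cast this
    have hd1 : (1 : ℤ) ≤ σ.den := by exact_mod_cast σ.den_pos
    refine ⟨σ.num, σ.den, hd1, hu, fun j hj => ?_⟩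
    have hje : j ≤ e := by
      have h3 : (σ.den : ℤ) * j ≤ σ.num * j :=
        mul_le_mul_of_nonneg_right (by nlinarith [(by exact_mod_cast hn : (1 : ℤ) ≤ n)])
          (by positivity)
      have h4 : (σ.den : ℤ) * j ≤ σ.den * e := by linarith
      exact_mod_cast le_of_mul_le_mul_left h4 (by omega)
    have h3 := mul_le_mul_of_nonneg_right (h2 j hje) (sq_nonneg (σ.den : ℝ))
    have : (σ.num : ℝ) * (e * σ.den - σ.num * j) ≤ n * (σ.den : ℝ) ^ 2 * φ j := by
      rw [hs]; nlinarith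
    exact_mod_cast this
  by_cases hr : ∃ σ : ℚ, (σ : ℝ) = σ₀
  · obtain ⟨σ, rfl⟩ := hr
    exact ⟨σ, hσ, fun j _ => H j⟩
  push Not at hr
  -- one side of `σ₀` is good
  have key : ∀ l : Filter ℝ, l ≤ nhds σ₀ → (∀ j : ℕ, σ₀ * (e - σ₀ * j) = n * φ j →
      ∀ᶠ σ in l, (σ - σ₀) * (e - (σ + σ₀) * j) ≤ 0) →
      ∀ᶠ σ in l, (n : ℝ) < σ ∧ ∀ j ∈ Finset.range (e + 1), σ * (e - σ * j) ≤ n * φ j := by
    intro l hl h
    refine ((lt_mem_nhds hσ).filter_mono hl).and ((Filter.eventually_all_finset _).2 fun j _ => ?_)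
    rcases (H j).eq_or_lt with h1 | h1
    · filter_upwards [h j h1] with σ h2
      nlinarith
    · have hc : ContinuousAt (fun σ : ℝ => σ * (e - σ * j)) σ₀ := by fun_prop
      exact ((hc.eventually (gt_mem_nhds h1)).filter_mono hl).mono fun σ h2 => h2.le
  have uniq : ∀ j j' : ℕ, σ₀ * (e - σ₀ * j) = n * φ j → σ₀ * (e - σ₀ * j') = n * φ j' →
      e - 2 * σ₀ * j < 0 → e - 2 * σ₀ * j' < 0 := by
    intro j j' h1 h2 h3
    by_cases hjj : j = j'
    · exact hjj ▸ h3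
    have h4 : ((j : ℝ) - j') ≠ 0 := sub_ne_zero.2 (by exact_mod_cast hjj)
    rcases Nat.eq_zero_or_pos e with rfl | he
    · have hp : 0 < σ₀ * σ₀ * j := by
        have : (0 : ℝ) ≤ n := by positivity
        push_cast at h3
        nlinarith
      push_cast at h1
      nlinarith [(by positivity : (0 : ℝ) ≤ n * φ j)]
    · exfalso
      have he' : (e : ℝ) ≠ 0 := by exact_mod_cast he.ne'
      refine hr ((n * (j * φ j' - j' * φ j)) / (e * (j - j'))) ?_
      push_cast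
      field_simp
      linear_combination (-(j : ℝ)) * h2 + j' * h1
  have fin : ∀ l : Filter ℝ, (∀ U ∈ l, ∃ σ : ℚ, (σ : ℝ) ∈ U) →
      (∀ᶠ σ in l, (n : ℝ) < σ ∧ ∀ j ∈ Finset.range (e + 1), σ * (e - σ * j) ≤ n * φ j) →
      ∃ σ : ℚ, (n : ℝ) < σ ∧ ∀ j ≤ e, (σ : ℝ) * (e - σ * j) ≤ n * φ j := by
    intro l h1 h2
    obtain ⟨σ, h3, h4⟩ := h1 _ h2
    exact ⟨σ, h3, fun j hj => h4 j (Finset.mem_range.2 (by omega))⟩
  have cont : ∀ j : ℕ, ContinuousAt (fun σ : ℝ => (e : ℝ) - (σ + σ₀) * j) σ₀ := fun j => by fun_prop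
  by_cases hs : ∃ j : ℕ, σ₀ * (e - σ₀ * j) = n * φ j ∧ e - 2 * σ₀ * j < 0
  · obtain ⟨j₀, h1, h2⟩ := hs
    refine fin (nhdsWithin σ₀ (Set.Ioi σ₀)) (fun U hU => ?_) (key _ nhdsWithin_le_nhds fun j hj => ?_)
    · obtain ⟨b, hb, h3⟩ := mem_nhdsGT_iff_exists_Ioo_subset.1 hU
      obtain ⟨σ, h4⟩ := exists_rat_btwn (Set.mem_Ioi.1 hb)
      exact ⟨σ, h3 h4⟩
    · have h3 : (e : ℝ) - (σ₀ + σ₀) * j < 0 := by linarith [uniq j₀ j h1 hj h2]
      filter_upwards [((cont j).eventually (gt_mem_nhds h3)).filter_mono nhdsWithin_le_nhds,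
        self_mem_nhdsWithin] with σ h4 h5
      exact mul_nonpos_of_nonneg_of_nonpos (sub_nonneg.2 (Set.mem_Ioi.1 h5).le) h4.le
  · push Not at hs
    refine fin (nhdsWithin σ₀ (Set.Iio σ₀)) (fun U hU => ?_) (key _ nhdsWithin_le_nhds fun j hj => ?_)
    · obtain ⟨b, hb, h3⟩ := mem_nhdsLT_iff_exists_Ioo_subset.1 hU
      obtain ⟨σ, h4⟩ := exists_rat_btwn (Set.mem_Iio.1 hb)
      exact ⟨σ, h3 h4⟩
    · filter_upwards [self_mem_nhdsWithin] with σ h5
      have h6 := Set.mem_Iio.1 h5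
      refine mul_nonpos_of_nonpos_of_nonneg (by linarith) ?_
      have := hs j hj
      nlinarith [(by positivity : (0 : ℝ) ≤ j)]

end Vale.Agent.N279V
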