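import Vale.Agent.N279V.Core

/-!
# The valuative inequality, its sharpness, and the translation of the classical statement
-/

set_option linter.all false

namespace Vale.Agent.N279V

open Vale.Agent.P279 Vale.Agent.N279

section Val

open Polynomial

variable {K : Type} [Field K]

theorem expand_eq (a : K) (ξ : PowerSeries K) (η : K[X]) (P : MvPolynomial (Fin 2) K) :
    expand a ξ P = ((sub a η P).map coeToPowerSeries.ringHom).comp (X + C (ξ - η)) := by
  induction P using MvPolynomial.induction_on with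
  | C c => simp [expand, sub, Polynomial.algebraMap_apply, PowerSeries.algebraMap_apply]
  | add p q hp hq =>
    rw [map_add, Polynomial.map_add, add_comp, ← hp, ← hq]
    exact map_add _ _ _
  | mul_X p i hp =>
    rw [map_mul, Polynomial.map_mul, mul_comp, ← hp]
    refine (map_mul _ _ _).trans ?_
    congr 1
    fin_cases i
    · simp [sub]
    · simp [sub]
      ring

theorem sub_ne_zero' (a : K) (η : K[X]) {P : MvPolynomial (Fin 2) K} (hP : P ≠ 0) :
    sub a η P ≠ 0 := by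
  intro h
  have h1 := eval₂_sub' (MvPolynomial.C : K →+* MvPolynomial (Fin 2) K)
    (MvPolynomial.X 0 - MvPolynomial.C a)
    (MvPolynomial.X 1 - η.eval₂ MvPolynomial.C (MvPolynomial.X 0 - MvPolynomial.C a)) a η P
  have h2 : (![MvPolynomial.X 0, MvPolynomial.X 1] : Fin 2 → MvPolynomial (Fin 2) K) =
      MvPolynomial.X := by
    funext i
    fin_cases i <;> rfl
  rw [h, eval₂_zero, add_sub_cancel, add_sub_cancel, h2, MvPolynomial.eval₂_eta] at h1
  exact hP h1.symm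

theorem expand_ne_zero (a : K) (ξ : PowerSeries K) {P : MvPolynomial (Fin 2) K} (hP : P ≠ 0) :
    expand a ξ P ≠ 0 := by
  rw [expand_eq a ξ 0, ← taylor_apply, ne_eq, taylor_eq_zero, Polynomial.map_eq_zero_iff]
  · exact sub_ne_zero' a 0 hP
  · exact fun _ _ h => coe_inj.1 h

theorem comp_mem {A : Type*} [CommRing A] {π δ : A} {t M : ℝ} {ht : 0 ≤ t} (hδ : π ^ ⌈t⌉₊ ∣ δ)
    {Q : A[X]} (hQ : Q ∈ (wf π ht).J M) : Q.comp (X + C δ) ∈ (wf π ht).J M :=
  eval₂_mem (wf π ht) C (C_mem_wf ht (by simp)) (add_mem (X_mem_wf ht) (C_mem_wf ht hδ)) hQ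

theorem mem_iff_expand (a : K) (ξ : PowerSeries K) {t M : ℝ} (ht : 0 ≤ t)
    (P : MvPolynomial (Fin 2) K) :
    sub a (PowerSeries.trunc ⌈t⌉₊ ξ) P ∈ (wf X ht).J M ↔
      expand a ξ P ∈ (wf PowerSeries.X ht).J M := by
  have h1 : PowerSeries.X ^ ⌈t⌉₊ ∣ ξ - ((PowerSeries.trunc ⌈t⌉₊ ξ : K[X]) : PowerSeries K) :=
    PowerSeries.X_pow_dvd_iff.2 fun m hm => by simp [PowerSeries.coeff_trunc, hm]
  have h2 : sub a (PowerSeries.trunc ⌈t⌉₊ ξ) P ∈ (wf X ht).J M ↔
      (sub a (PowerSeries.trunc ⌈t⌉₊ ξ) P).map coeToPowerSeries.ringHom ∈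
        (wf PowerSeries.X ht).J M := by
    simp only [mem_wf, X_pow_dvd_iff, PowerSeries.X_pow_dvd_iff, coeff_map,
      coeToPowerSeries.ringHom_apply, coeff_coe]
  rw [h2, expand_eq a ξ (PowerSeries.trunc ⌈t⌉₊ ξ)]
  refine ⟨comp_mem h1, fun h => ?_⟩
  have h3 := comp_mem ((dvd_neg).2 h1) h
  rwa [comp_assoc, add_comp, X_comp, C_comp, add_assoc, ← C_add, neg_add_cancel, C_0, add_zero,
    comp_X] at h3

theorem expand_mem_val (a : K) (ξ : PowerSeries K) {t : ℝ} (ht : 0 ≤ t)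
    (P : MvPolynomial (Fin 2) K) : expand a ξ P ∈ (wf PowerSeries.X ht).J (val a ξ t P) := by
  intro j
  refine PowerSeries.X_pow_dvd_iff.2 fun i hi => ?_
  by_contra h
  have h1 : val a ξ t P ≤ i + t * j :=
    csInf_le ⟨0, by rintro _ ⟨i, j, -, rfl⟩; positivity⟩ ⟨i, j, h, rfl⟩
  rw [Nat.lt_ceil] at hi
  linarith

theorem le_val (a : K) (ξ : PowerSeries K) {t M : ℝ} (ht : 0 ≤ t) {P : MvPolynomial (Fin 2) K}
    (hP : P ≠ 0) (h : expand a ξ P ∈ (wf PowerSeries.X ht).J M) : M ≤ val a ξ t P := by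
  refine le_csInf ?_ ?_
  · by_contra hne
    refine expand_ne_zero a ξ hP ?_
    ext j i
    by_contra h1
    exact hne ⟨_, i, j, by simpa using h1, rfl⟩
  · rintro _ ⟨i, j, h1, rfl⟩
    by_contra h2
    exact h1 (PowerSeries.X_pow_dvd_iff.1 (h j) i (Nat.lt_ceil.2 (by linarith)))

theorem val_C (a : K) (ξ : PowerSeries K) {t : ℝ} (ht : 0 ≤ t) (c : K) :
    val a ξ t (MvPolynomial.C c) ≤ 0 := by
  by_cases hc : c = 0
  · simp [val, expand, hc]
  refine csInf_le ⟨0, by rintro _ ⟨i, j, -, rfl⟩; positivity⟩ ⟨0, 0, ?_, by simp⟩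
  simpa [expand, Polynomial.algebraMap_apply, PowerSeries.algebraMap_apply] using hc

theorem supp_tri {P : MvPolynomial (Fin 2) K} : P.support ⊆ tri P.totalDegree := fun δ hδ => by
  have h1 := MvPolynomial.le_totalDegree hδ
  rwa [Finsupp.sum_fintype _ _ (fun _ => rfl), Fin.sum_univ_two, ← mem_tri] at h1

/-- The valuative inequality. -/
theorem val_lt {F : Type} [Field F] [Algebra F K] {r : ℕ} {a : Fin r → K}
    {ξ : Fin r → PowerSeries K} {t : Fin r → ℝ} (ht1 : ∀ i, 1 ≤ t i)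
    (hv : AlgebraicIndependent F (Sum.elim a fun x : {x : Fin r × ℕ // (x.2 : ℝ) < t x.1} =>
      PowerSeries.coeff x.1.2 (ξ x.1.1))) {P : MvPolynomial (Fin 2) K} (hd : 1 ≤ P.totalDegree)
    {g : ℝ} (hg : 9 < g) (hT : ∑ i, t i ≤ g) :
    ∑ i, val (a i) (ξ i) (t i) P < P.totalDegree * √g := by
  by_contra hcon
  have ht : ∀ i, 0 ≤ t i := fun i => zero_le_one.trans (ht1 i)
  obtain ⟨a', ξ', h1, h2⟩ := coreV (k := AlgebraicClosure F) hd ht ht1 hg hT (not_lt.1 hcon)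
  refine h2 (transferV ((algebraMap (PowerSeries (AlgebraicClosure F)) _).comp
    ((algebraMap _ (PowerSeries (AlgebraicClosure F))).comp (algebraMap F (AlgebraicClosure F))))
    ht ht1 (a := a) (ξ := fun i => PowerSeries.trunc ⌈t i⌉₊ (ξ i)) (fun i j hj => ?_) ?_
    ⟨P, ?_, supp_tri, fun i => (mem_iff_expand _ _ _ _).2 (expand_mem_val _ _ _ _)⟩ a' ξ' h1)
  · rw [PowerSeries.coeff_trunc, if_neg (not_lt.2 (Nat.ceil_le.2 hj))]
  · convert hv using 1
    unfold par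
    congr 1
    funext x
    exact (PowerSeries.coeff_trunc _ _ _).trans (if_pos (Nat.lt_ceil.2 x.2))
  · rintro rfl
    simp at hd

theorem val_le {F : Type} [Field F] [Algebra F K] {r : ℕ} {a : Fin r → K}
    {ξ : Fin r → PowerSeries K} {t : Fin r → ℝ} (ht1 : ∀ i, 1 ≤ t i)
    (hv : AlgebraicIndependent F (Sum.elim a fun x : {x : Fin r × ℕ // (x.2 : ℝ) < t x.1} =>
      PowerSeries.coeff x.1.2 (ξ x.1.1))) {P : MvPolynomial (Fin 2) K} (hd : 1 ≤ P.totalDegree)
    (hT : 9 ≤ ∑ i, t i) : ∑ i, val (a i) (ξ i) (t i) P ≤ P.totalDegree * √(∑ i, t i) := by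
  by_contra hcon
  push Not at hcon
  have hd0 : (0 : ℝ) < P.totalDegree := by exact_mod_cast hd
  set S := ∑ i, val (a i) (ξ i) (t i) P with hS
  have h1 : √(∑ i, t i) < S / P.totalDegree := by rwa [lt_div_iff₀' hd0]
  have h2 : ∑ i, t i < (S / P.totalDegree) ^ 2 := (Real.sqrt_lt' ((Real.sqrt_nonneg _).trans_lt h1)).1 h1
  have h3 := val_lt ht1 hv hd (hT.trans_lt h2) h2.le
  rw [Real.sqrt_sq ((Real.sqrt_nonneg _).trans h1.le), mul_div_cancel₀ _ hd0.ne'] at h3
  exact lt_irrefl _ h3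

/-- Curves with weighted orders proportional to the weights. -/
theorem exists_curve {r : ℕ} (a : Fin r → K) (ξ : Fin r → PowerSeries K) {t : Fin r → ℝ}
    (ht1 : ∀ i, 1 ≤ t i) (m : ℕ) : ∃ P : MvPolynomial (Fin 2) K, P ≠ 0 ∧
      (P.totalDegree : ℝ) ≤ √(∑ i, t i) * (m + 2) + 1 ∧ ∀ i, t i * m ≤ val (a i) (ξ i) (t i) P := by
  classical
  have ht : ∀ i, 0 ≤ t i := fun i => zero_le_one.trans (ht1 i)
  have hT : 0 ≤ ∑ i, t i := Finset.sum_nonneg fun i _ => ht i
  set d := ⌈√(∑ i, t i) * (m + 2)⌉₊ with hd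
  have hex : ExV (tri d) ht (fun i => t i * m) a fun i => PowerSeries.trunc ⌈t i⌉₊ (ξ i) := by
    rw [exV_iff ht (L := fun _ => m) (fun i => le_rfl), ker_iff]
    intro hli
    have h1 := hli.fintype_card_le_finrank
    rw [Module.finrank_fintype_fun_eq_card, Fintype.card_sigma, Fintype.card_coe] at h1
    have h2 : ∀ i, (2 * Fintype.card (Σ j : Fin m, Fin ⌈t i * m - t i * j⌉₊) : ℝ) ≤
        t i * (m + 2) ^ 2 := by
      intro i
      rw [Fintype.card_sigma]
      simp only [Fintype.card_fin]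
      push_cast
      have h3 : ∀ n : ℕ, 2 * ∑ j ∈ Finset.range n, ((m : ℝ) - j + 1) = n * (2 * m + 3 - n) := by
        intro n
        induction n with
        | zero => simp
        | succ n ih => rw [Finset.sum_range_succ, mul_add, ih]; push_cast; ring
      have h4 : ∑ j : Fin m, (⌈t i * m - t i * j⌉₊ : ℝ) ≤
          t i * ∑ j ∈ Finset.range m, ((m : ℝ) - j + 1) := by
        rw [← Fin.sum_univ_eq_sum_range (fun j => (m : ℝ) - j + 1), Finset.mul_sum]
        refine Finset.sum_le_sum fun j _ => ?_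
        have h5 : (j : ℝ) ≤ m := by exact_mod_cast j.2.le
        have := (Nat.ceil_lt_add_one (by nlinarith [ht i] : 0 ≤ t i * m - t i * j)).le
        nlinarith [ht1 i]
      have h6 := h3 m
      have h7 : (0 : ℝ) ≤ m := by positivity
      nlinarith [mul_nonneg (ht i) h7, ht i]
    have h8 : (d : ℝ) ^ 2 < 2 * (tri d).card := by exact_mod_cast card_tri d
    have h9 : ((tri d).card : ℝ) ≤
        ∑ i, (Fintype.card (Σ j : Fin m, Fin ⌈t i * m - t i * j⌉₊) : ℝ) := by exact_mod_cast h1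
    have h10 := Finset.sum_le_sum fun i (_ : i ∈ Finset.univ) => h2 i
    rw [← Finset.mul_sum, ← Finset.sum_mul] at h10
    have h11 := pow_le_pow_left₀ (by positivity) (Nat.le_ceil (√(∑ i, t i) * (m + 2))) 2
    rw [mul_pow, Real.sq_sqrt hT] at h11
    linarith
  obtain ⟨P, h0, hS, hP⟩ := hex
  refine ⟨P, h0, ?_, fun i => le_val _ _ (ht i) h0 ((mem_iff_expand _ _ _ _).1 (hP i))⟩
  have h1 : P.totalDegree ≤ d := Finset.sup_le fun δ hδ => by
    rw [Finsupp.sum_fintype _ _ (fun _ => rfl), Fin.sum_univ_two]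
    exact mem_tri.1 (hS hδ)
  exact (Nat.cast_le.2 h1).trans (Nat.ceil_lt_add_one (by positivity)).le

theorem exists_sharp {r : ℕ} (hr : 1 ≤ r) (a : Fin r → K) (ξ : Fin r → PowerSeries K)
    {t : Fin r → ℝ} (ht1 : ∀ i, 1 ≤ t i) {ε : ℝ} (hε : 0 < ε) :
    ∃ (P : MvPolynomial (Fin 2) K) (m : ℕ), 1 ≤ P.totalDegree ∧
      (∀ i, t i * m ≤ val (a i) (ξ i) (t i) P) ∧ P.totalDegree < (1 + ε) * (m * √(∑ i, t i)) := by
  obtain ⟨m, hm⟩ := exists_nat_gt (3 / ε)
  obtain ⟨P, h0, h1, h2⟩ := exists_curve a ξ ht1 m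
  have hm0 : (0 : ℝ) < m := (by positivity : (0 : ℝ) < 3 / ε).trans hm
  have hT : 1 ≤ ∑ i, t i := (ht1 ⟨0, hr⟩).trans
    (Finset.single_le_sum (fun i _ => zero_le_one.trans (ht1 i)) (Finset.mem_univ _))
  have hs : 1 ≤ √(∑ i, t i) := Real.one_le_sqrt.2 hT
  refine ⟨P, m, ?_, h2, h1.trans_lt ?_⟩
  · by_contra hd
    have h3 := h2 ⟨0, hr⟩
    rw [MvPolynomial.totalDegree_eq_zero_iff_eq_C.1 (by omega : P.totalDegree = 0)] at h3
    have := h3.trans (val_C _ _ (zero_le_one.trans (ht1 _)) _)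
    nlinarith [ht1 ⟨0, hr⟩]
  · rw [div_lt_iff₀ hε] at hm
    nlinarith

theorem sharp {r : ℕ} (hr : 1 ≤ r) (a : Fin r → K) (ξ : Fin r → PowerSeries K)
    {t : Fin r → ℝ} (ht1 : ∀ i, 1 ≤ t i) {ε : ℝ} (hε : 0 < ε) :
    ∃ P : MvPolynomial (Fin 2) K, 1 ≤ P.totalDegree ∧
      P.totalDegree * √(∑ i, t i) < (1 + ε) * ∑ i, val (a i) (ξ i) (t i) P := by
  obtain ⟨P, m, h1, h2, h3⟩ := exists_sharp hr a ξ ht1 hε
  have hT : 1 ≤ ∑ i, t i := (ht1 ⟨0, hr⟩).trans
    (Finset.single_le_sum (fun i _ => zero_le_one.trans (ht1 i)) (Finset.mem_univ _))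
  have h4 := Finset.sum_le_sum fun i (_ : i ∈ Finset.univ) => h2 i
  rw [← Finset.sum_mul] at h4
  refine ⟨P, h1, (mul_lt_mul_of_pos_right h3 (Real.sqrt_pos.2 (by linarith))).trans_le ?_⟩
  rw [mul_assoc, mul_assoc, Real.mul_self_sqrt (by linarith), mul_comm (m : ℝ)]
  gcongr

end Val

section Rees

open MvPolynomial

variable {K : Type} [Field K]

/-- The elements whose monomials `u ^ d w ^ m` satisfy `s m ≤ ρ d`. -/
def cone (K : Type) [Field K] (s ρ : ℝ) :
    Subalgebra K (MvPolynomial (Fin 2) (MvPolynomial (Fin 2) K)) where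
  carrier := {G | ∀ δ ∈ G.support, s * δ 1 ≤ ρ * δ 0}
  mul_mem' {G H} hG hH δ hδ := by
    classical
    obtain ⟨x, hx, y, hy, rfl⟩ := Finset.mem_add.1 (support_mul G H hδ)
    have := add_le_add (hG x hx) (hH y hy)
    simp only [Finsupp.add_apply]
    push_cast
    linarith
  add_mem' {G H} hG hH δ hδ := by
    classical
    exact (Finset.mem_union.1 (support_add hδ)).elim (hG δ) (hH δ)
  algebraMap_mem' c δ hδ := by
    classical
    have : δ = 0 := Finset.mem_singleton.1 (support_monomial_subset hδ)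
    simp [this]

theorem cone_mono {s ρ ρ' : ℝ} (h : ρ ≤ ρ') : cone K s ρ ≤ cone K s ρ' :=
  fun G hG δ hδ => (hG δ hδ).trans (by gcongr)

theorem gen_eq (P : MvPolynomial (Fin 2) K) (d m : ℕ) :
    (C P * X 0 ^ d * X 1 ^ m : MvPolynomial (Fin 2) (MvPolynomial (Fin 2) K)) =
      monomial (Finsupp.single 0 d + Finsupp.single 1 m) P := by
  rw [X_pow_eq_monomial, X_pow_eq_monomial, C_mul_monomial, monomial_mul, mul_one, mul_one]

theorem not_fg {F : Type} [Field F] [Algebra F K] {r : ℕ} {a : Fin r → K}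
    {ξ : Fin r → PowerSeries K} {t : Fin r → ℝ} (ht1 : ∀ i, 1 ≤ t i)
    (hv : AlgebraicIndependent F (Sum.elim a fun x : {x : Fin r × ℕ // (x.2 : ℝ) < t x.1} =>
      PowerSeries.coeff x.1.2 (ξ x.1.1))) (hT : 9 < ∑ i, t i) : ¬ (rees a ξ t).FG := by
  classical
  rintro ⟨S, hS⟩
  have hr : 1 ≤ r := by
    rcases Nat.eq_zero_or_pos r with rfl | h
    · norm_num at hT
    · exact h
  set s := √(∑ i, t i) with hs
  have hs0 : 0 < s := Real.sqrt_pos.2 (by linarith)
  have hss : s * s = ∑ i, t i := Real.mul_self_sqrt (by linarith)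
  have h1 : ∀ G ∈ rees a ξ t, ∃ ρ < 1, G ∈ cone K s ρ := by
    intro G hG
    induction hG using Algebra.adjoin_induction with
    | mem G hG =>
      obtain ⟨P, d, m, g1, g2, rfl⟩ := hG
      suffices h : ∃ ρ < 1, s * m ≤ ρ * d by
        obtain ⟨ρ, g3, g4⟩ := h
        refine ⟨ρ, g3, fun δ hδ => ?_⟩
        rw [gen_eq] at hδ
        rw [Finset.mem_singleton.1 (support_monomial_subset hδ)]
        simpa using g4
      rcases Nat.eq_zero_or_pos P.totalDegree with h0 | h0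
      · have h3 := g2 ⟨0, hr⟩
        rw [totalDegree_eq_zero_iff_eq_C.1 h0] at h3
        have h4 := h3.trans (val_C _ _ (zero_le_one.trans (ht1 _)) _)
        refine ⟨0, zero_lt_one, ?_⟩
        have : (m : ℝ) ≤ 0 := by nlinarith [ht1 ⟨0, hr⟩, (by positivity : (0 : ℝ) ≤ m)]
        nlinarith
      · have h3 := val_lt ht1 hv h0 hT le_rfl
        have h4 := Finset.sum_le_sum fun i (_ : i ∈ Finset.univ) => g2 i
        rw [← Finset.sum_mul, ← hss] at h4
        have h5 : (P.totalDegree : ℝ) ≤ d := by exact_mod_cast g1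
        have h6 : (0 : ℝ) < d := by exact_mod_cast h0.trans_le g1
        refine ⟨s * m / d, (div_lt_one h6).2 ?_, (div_mul_cancel₀ _ h6.ne').ge⟩
        refine lt_of_mul_lt_mul_left (a := s) ?_ hs0.le
        nlinarith
    | algebraMap c => exact ⟨0, zero_lt_one, Subalgebra.algebraMap_mem _ c⟩
    | add G H _ _ hG hH =>
      obtain ⟨ρ, g1, g2⟩ := hG
      obtain ⟨ρ', g3, g4⟩ := hH
      exact ⟨max ρ ρ', max_lt g1 g3,
        add_mem (cone_mono (le_max_left _ _) g2) (cone_mono (le_max_right _ _) g4)⟩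
    | mul G H _ _ hG hH =>
      obtain ⟨ρ, g1, g2⟩ := hG
      obtain ⟨ρ', g3, g4⟩ := hH
      exact ⟨max ρ ρ', max_lt g1 g3,
        mul_mem (cone_mono (le_max_left _ _) g2) (cone_mono (le_max_right _ _) g4)⟩
  obtain ⟨ρ, g0, g1, g2⟩ : ∃ ρ, 0 < ρ ∧ ρ < 1 ∧ ∀ G ∈ S, G ∈ cone K s ρ := by
    have h2 : ∀ G ∈ S, ∀ᶠ ρ in nhdsWithin (1 : ℝ) (Set.Iio 1), G ∈ cone K s ρ := fun G hG => by
      obtain ⟨ρ, g1, g2⟩ := h1 G (hS ▸ Algebra.subset_adjoin hG)
      filter_upwards [Ioo_mem_nhdsLT g1] with ρ' h using cone_mono h.1.le g2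
    obtain ⟨ρ, g1, g2⟩ := (Filter.Eventually.and (p := fun ρ => ρ ∈ Set.Ioo (0 : ℝ) 1)
      (Ioo_mem_nhdsLT (zero_lt_one' ℝ)) ((Filter.eventually_all_finset S).2 h2)).exists
    exact ⟨ρ, g1.1, g1.2, g2⟩
  obtain ⟨P, m, p1, p2, p3⟩ := exists_sharp hr a ξ ht1 (ε := ρ⁻¹ - 1)
    (sub_pos.2 ((one_lt_inv₀ g0).2 g1))
  have h3 : rees a ξ t ≤ cone K s ρ := hS ▸ Algebra.adjoin_le g2
  have h4 := h3 (Algebra.subset_adjoin ⟨P, P.totalDegree, m, le_rfl, p2, rfl⟩)
    (Finsupp.single 0 P.totalDegree + Finsupp.single 1 m) (by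
      rw [gen_eq, mem_support_iff, coeff_monomial, if_pos rfl]
      rintro rfl
      simp at p1)
  rw [add_sub_cancel, ← hs, ← div_eq_inv_mul, lt_div_iff₀ g0] at p3
  simp at h4
  linarith

end Rees

section Classical

open MvPolynomial

theorem fderiv_eval (F : MvPolynomial (Fin 3) ℂ) (v : Fin 3 → ℂ) (j : Fin 3) :
    fderiv ℂ (fun v : Fin 3 → ℂ => eval v F) v (Pi.single j 1) = eval v (pderiv j F) := by
  have hd : ∀ G : MvPolynomial (Fin 3) ℂ, DifferentiableAt ℂ (fun v : Fin 3 → ℂ => eval v G) v :=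
    fun G => (AnalyticOnNhd.eval_mvPolynomial G v (Set.mem_univ _)).differentiableAt
  induction F using MvPolynomial.induction_on with
  | C a => simp
  | add p q hp hq =>
    simp only [map_add]
    rw [fderiv_fun_add (hd p) (hd q), ContinuousLinearMap.add_apply, hp, hq]
  | mul_X p i hp =>
    simp only [map_mul, eval_X]
    rw [fderiv_fun_mul (hd p) (differentiableAt_apply i v), (hasFDerivAt_apply i v).fderiv]
    by_cases h : i = j
    · simp [hp, h, mul_comm]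
    · simp [hp, h, mul_comm, pderiv_X]

theorem deriv_step {F : MvPolynomial (Fin 3) ℂ} {k : ℕ} {v : Fin 3 → ℂ}
    (h : iteratedFDeriv ℂ (k + 1) (fun v => eval v F) v = 0) (j : Fin 3) :
    iteratedFDeriv ℂ k (fun v => eval v (pderiv j F)) v = 0 := by
  have hc : ContDiff ℂ ⊤ fun v : Fin 3 → ℂ => eval v F :=
    (AnalyticOnNhd.eval_mvPolynomial F).contDiff
  have h1 : (fun v => eval v (pderiv j F)) =
      fun y => fderiv ℂ (fun v : Fin 3 → ℂ => eval v F) y (Pi.single j 1) := by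
    funext y
    rw [fderiv_eval]
  ext m
  rw [h1, iteratedFDeriv_clm_apply_const_apply (n := (k : ℕ∞)) (hc.fderiv_right le_top) le_rfl]
  have h2 := iteratedFDeriv_succ_apply_right (𝕜 := ℂ) (f := fun v : Fin 3 → ℂ => eval v F) (x := v)
    (Fin.snoc m (Pi.single j 1))
  rw [h, Fin.init_snoc, Fin.snoc_last] at h2
  exact h2.symm

theorem multAtLeast_of {F : MvPolynomial (Fin 3) ℂ} {p : PPlane} {m : ℕ} (h : m ≤ mult F p) :
    MultAtLeast F p m := by
  intro l hl
  have h1 : iteratedFDeriv ℂ l.length (fun v => eval v F) p.rep = 0 := by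
    by_contra h2
    have := h.trans (iInf₂_le (f := fun (k : ℕ) (_ : k ∈ {k : ℕ |
      iteratedFDeriv ℂ k (fun v => MvPolynomial.eval v F) p.rep ≠ 0}) => (k : ℕ∞)) _ h2)
    exact absurd (Nat.cast_le.1 this) (by omega)
  clear hl h
  induction l using List.reverseRecOn generalizing F with
  | nil => simpa using congrArg (fun f => f ![]) h1
  | append_singleton l j ih =>
    rw [List.foldr_append]
    rw [List.length_append] at h1
    exact ih (deriv_step h1 j)

theorem eval_scale {r : ℕ} {G : MvPolynomial (Fin r × Fin 3) ℂ} (hG : MultiHomogeneous G)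
    (u : Fin r → ℂˣ) (v : Fin r × Fin 3 → ℂ) :
    eval (fun x => u x.1 * v x) G = 0 ↔ eval v G = 0 := by
  choose e he using hG
  have : eval (fun x => u x.1 * v x) G = (∏ i, (u i : ℂ) ^ e i) * eval v G := by
    rw [eval_eq', eval_eq', Finset.mul_sum]
    refine Finset.sum_congr rfl fun s hs => ?_
    simp only [mul_pow, Finset.prod_mul_distrib]
    rw [Fintype.prod_prod_type]
    simp only [Finset.prod_pow_eq_pow_sum, he _ s hs]
    ring
  rw [this, mul_eq_zero, or_iff_right]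
  exact Finset.prod_ne_zero_iff.2 fun i _ => pow_ne_zero _ (u i).ne_zero

theorem zClosed_of {r : ℕ} {Z : Set (Fin r → PPlane)} (h : IsZariskiClosed Z) : ZClosed Z := by
  obtain ⟨S, h1, rfl⟩ := h
  refine ⟨Ideal.span S, fun v hv => ?_⟩
  rw [zeroLocus_span]
  choose u hu using fun i => Projectivization.exists_smul_eq_mk_rep ℂ (v i) (hv i)
  refine forall₂_congr fun G hG => ?_
  simp only [← hu]
  exact eval_scale (h1 G hG) u _

theorem nagata (r : ℕ) (hr : 10 ≤ r) : ∃ Z : ℕ → Set (Fin r → Projectivization ℂ (Fin 3 → ℂ)),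
    (∀ k, ZClosed (Z k) ∧ ∃ p, Function.Injective p ∧ p ∉ Z k) ∧
    ∀ p, Function.Injective p → p ∉ ⋃ k, Z k →
      ∀ (d : ℕ) (F : MvPolynomial (Fin 3) ℂ), 1 ≤ d → F.IsHomogeneous d → F ≠ 0 →
        ∀ m : Fin r → ℕ, (∀ i, m i ≤ mult F (p i)) → ∑ i, (m i : ℝ) < d * √(r : ℝ) := by
  obtain ⟨Z, h1, h2⟩ := complex (r := r)
  exact ⟨Z, fun k => ⟨zClosed_of (h1 k).1, (h1 k).2⟩, fun p hp hZ d F hd hF h0 m hm =>
    nagata_of hr (h2 p hp (by simpa using hZ) d F hd hF h0 m (fun i => multAtLeast_of (hm i)) 3 ∅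
      le_rfl (by omega) (by simp))⟩

end Classical

end Vale.Agent.N279V
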